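import Vale.Agent.P075.Mat

/-! One scale: the increment of the regularised form is controlled by the decrease of the
potential `Om`. -/

open Matrix

namespace Vale.Agent.P075

set_option linter.unusedSectionVars false

variable {ι : Type*} [Fintype ι] [DecidableEq ι]

/-- Regularised operator. -/
noncomputable def G (t : ℝ) (X : Matrix ι ι ℝ) : Matrix ι ι ℝ := t • (Res t (X * Xᵀ) * X)

/-- The junction operator. -/
def T (X Z : Matrix ι ι ℝ) : Matrix ι ι ℝ := X * Xᵀ + Zᵀ * Z

/-- Potential of a triple. -/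
noncomputable def Om (t : ℝ) (X Y Z : Matrix ι ι ℝ) : ℝ :=
  psi t (T X Z) + psi t (T Y X) + psi t (T Z Y)

/-- Signed triangle form. -/
def form (h X Y Z : Matrix ι ι ℝ) : ℝ := (h * X * h * Y * h * Z).trace

lemma T_psd (X Z : Matrix ι ι ℝ) : (T X Z).PosSemidef := (psd_mul_tr X).add (psd_tr_mul Z)

lemma push (X : Matrix ι ι ℝ) {t : ℝ} (ht : 0 < t) :
    Res t (X * Xᵀ) * X = X * Res t (Xᵀ * X) := by
  have h : (X * Xᵀ + t • 1) * X = X * (Xᵀ * X + t • 1) := by
    simp [add_mul, mul_add, mul_assoc]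
  calc Res t (X * Xᵀ) * X
      = Res t (X * Xᵀ) * X * ((Xᵀ * X + t • 1) * Res t (Xᵀ * X)) := by
        rw [mul_res (psd_tr_mul X) ht, mul_one]
    _ = Res t (X * Xᵀ) * (X * (Xᵀ * X + t • 1)) * Res t (Xᵀ * X) := by simp only [mul_assoc]
    _ = X * Res t (Xᵀ * X) := by
        rw [← h, ← mul_assoc (Res t _), res_mul (psd_mul_tr X) ht, one_mul]

lemma G_transpose (X : Matrix ι ι ℝ) {t : ℝ} (ht : 0 < t) : (G t X)ᵀ = G t Xᵀ := by
  have h := push Xᵀ ht
  rw [transpose_transpose] at h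
  rw [G, G, transpose_smul, transpose_mul, res_symm (psd_mul_tr X) ht, transpose_transpose, h]

lemma sub_sq_eq {S : Matrix ι ι ℝ} (hS : S.PosSemidef) {t : ℝ} (ht : 0 < t) :
    P t S - P t S * P t S = t • (Res t S * S * Res t S) := by
  calc P t S - P t S * P t S = (1 - P t S) * P t S := by rw [sub_mul, one_mul]
    _ = t • (Res t S * S * Res t S) := by
        rw [show (1 : Matrix ι ι ℝ) - P t S = t • Res t S by rw [P, sub_sub_cancel],
          P_eq_mul hS ht, smul_mul_assoc, mul_assoc]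

lemma G_mul_tr (X : Matrix ι ι ℝ) {t : ℝ} (ht : 0 < t) :
    G t X * (G t X)ᵀ = t • (P t (X * Xᵀ) - P t (X * Xᵀ) * P t (X * Xᵀ)) := by
  rw [sub_sq_eq (psd_mul_tr X) ht, G, transpose_smul, transpose_mul,
    res_symm (psd_mul_tr X) ht]
  simp only [smul_mul_assoc, mul_smul_comm, mul_assoc]

lemma G_le_self (X : Matrix ι ι ℝ) {t : ℝ} (ht : 0 < t) :
    (t • P t (X * Xᵀ) - G t X * (G t X)ᵀ).PosSemidef := by
  rw [G_mul_tr X ht, ← smul_sub, sub_sub_cancel]
  refine PosSemidef.smul ?_ ht.le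
  have := psd_tr_mul (P t (X * Xᵀ))
  rwa [P_symm (psd_mul_tr X) ht] at this

lemma G_le (X : Matrix ι ι ℝ) {t u : ℝ} (ht : 0 < t) (hu : u = t ∨ u = 4 * t) :
    ((4 * t) • P t (X * Xᵀ) - G u X * (G u X)ᵀ).PosSemidef := by
  rcases hu with rfl | rfl
  · have := ((P_psd (psd_mul_tr X) ht).smul (show (0:ℝ) ≤ 3 * u by linarith)).add (G_le_self X ht)
    rwa [show (3 * u) • P u (X * Xᵀ) + (u • P u (X * Xᵀ) - G u X * (G u X)ᵀ)
      = (4 * u) • P u (X * Xᵀ) - G u X * (G u X)ᵀ by module] at this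
  · have h4 : (0:ℝ) < 4 * t := by linarith
    have := ((P_four_le (psd_mul_tr X) ht).smul h4.le).add (G_le_self X h4)
    rwa [show (4 * t) • (P t (X * Xᵀ) - P (4 * t) (X * Xᵀ))
        + ((4 * t) • P (4 * t) (X * Xᵀ) - G (4 * t) X * (G (4 * t) X)ᵀ)
      = (4 * t) • P t (X * Xᵀ) - G (4 * t) X * (G (4 * t) X)ᵀ by module] at this

lemma G_le' (X : Matrix ι ι ℝ) {t u : ℝ} (ht : 0 < t) (hu : u = t ∨ u = 4 * t) :
    ((4 * t) • P t (Xᵀ * X) - (G u X)ᵀ * G u X).PosSemidef := by
  have hu0 : 0 < u := by rcases hu with rfl | rfl <;> linarith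
  have := G_le Xᵀ ht hu
  rwa [← G_transpose X hu0, transpose_transpose, transpose_transpose] at this

lemma G_diff (X : Matrix ι ι ℝ) {t : ℝ} (ht : 0 < t) :
    G (4 * t) X - G t X = (3 * t) • (Res (4 * t) (X * Xᵀ) * X * P t (Xᵀ * X)) := by
  have e : ∀ u, G u X = X - P u (X * Xᵀ) * X := by
    intro u; rw [P, sub_mul, one_mul, sub_sub_cancel, smul_mul_assoc, G]
  rw [e, e, sub_sub_sub_cancel_left, ← sub_mul, P_sub_P_four_eq (psd_mul_tr X) ht, smul_mul_assoc]
  congr 1
  rw [mul_assoc, mul_assoc (X * Xᵀ), push X ht, P_eq_mul (psd_tr_mul X) ht]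
  simp only [mul_assoc]

lemma trace_amgm (U V : Matrix ι ι ℝ) {c : ℝ} (hc : 0 < c) :
    |(U * V).trace| ≤ (c * (U * Uᵀ).trace + c⁻¹ * (Vᵀ * V).trace) / 2 := by
  have key : ∀ σ : ℝ, σ * σ = 1 →
      σ * (U * V).trace ≤ (c * (U * Uᵀ).trace + c⁻¹ * (Vᵀ * V).trace) / 2 := by
    intro σ hσ
    have h := (psd_mul_tr (c • U - σ • Vᵀ)).trace_nonneg
    have e : ((c • U - σ • Vᵀ) * (c • U - σ • Vᵀ)ᵀ).trace
        = c * c * (U * Uᵀ).trace + σ * σ * (Vᵀ * V).trace - 2 * c * σ * (U * V).trace := by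
      have e2 : (Vᵀ * Uᵀ).trace = (U * V).trace := by
        rw [← transpose_mul, trace_transpose]
      simp only [transpose_sub, transpose_smul, transpose_transpose, sub_mul, mul_sub,
        smul_mul_assoc, mul_smul_comm, trace_sub, trace_smul, smul_eq_mul, e2]
      ring
    rw [e, hσ] at h
    rw [le_div_iff₀ two_pos]
    rw [← sub_nonneg]
    have hh : c * (U * Uᵀ).trace + c⁻¹ * (Vᵀ * V).trace - σ * (U * V).trace * 2
        = c⁻¹ * (c * c * (U * Uᵀ).trace + 1 * (Vᵀ * V).trace - 2 * c * σ * (U * V).trace) := by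
      field_simp
    rw [hh]; positivity
  rcases le_total 0 (U * V).trace with h | h
  · rw [abs_of_nonneg h]; simpa using key 1 (by ring)
  · rw [abs_of_nonpos h]; simpa using key (-1) (by ring)

/-- The main term estimate. -/
lemma term_le (h X Y Z : Matrix ι ι ℝ) (hT : hᵀ = h) (hh : h * h = 1) {s t u v : ℝ}
    (hs : 0 < s) (hts : t = s ^ 2) (hu : u = t ∨ u = 4 * t) (hv : v = t ∨ v = 4 * t) :
    |form h (G (4 * t) X - G t X) (G u Y) (G v Z)| ≤
      6 * s * (t * (P t (T X Z) * (h * P t (T X Z) * h)).trace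
        + t * (P t (T Y X) * (h * P t (T Y X) * h)).trace) := by
  have ht : 0 < t := by rw [hts]; positivity
  have h4 : (0:ℝ) < 4 * t := by linarith
  set R := X * Xᵀ with hR
  have pR : R.PosSemidef := psd_mul_tr X
  have pQ : (Xᵀ * X).PosSemidef := psd_tr_mul X
  set A := Res (4 * t) R * X with hA
  set B := P t (Xᵀ * X) with hB
  set Gy := G u Y
  set Gz := G v Z
  set U := B * h * Gy with hU
  set V := h * Gz * h * A with hV
  clear_value U V A B
  have e1 : form h (G (4 * t) X - G t X) Gy Gz = 3 * t * (U * V).trace := by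
    rw [G_diff X ht, form]
    simp only [mul_smul_comm, smul_mul_assoc, trace_smul, smul_eq_mul]
    congr 1
    rw [show h * (Res (4 * t) (X * Xᵀ) * X * P t (Xᵀ * X)) * h * Gy * h * Gz
      = (h * A) * (B * h * Gy * h * Gz) by simp only [hA, hB, hR, mul_assoc], trace_mul_comm,
      hU, hV]
    simp only [mul_assoc]
  have hTA : (T X Z - Zᵀ * Z).PosSemidef := by
    rw [T, add_sub_cancel_right]; exact psd_mul_tr X
  have hTA' : (T X Z - R).PosSemidef := by
    rw [T, hR, add_sub_cancel_left]; exact psd_tr_mul Z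
  have hTB : (T Y X - Y * Yᵀ).PosSemidef := by
    rw [T, add_sub_cancel_left]; exact pQ
  have hTB' : (T Y X - Xᵀ * X).PosSemidef := by
    rw [T, add_sub_cancel_right]; exact psd_mul_tr Y
  have bB : (P t (T Y X) - B * B).PosSemidef := by
    have := (P_mono pQ hTB' ht).add (P_sub_sq pQ ht)
    rwa [sub_add_sub_cancel, ← hB] at this
  have bU : (U * Uᵀ).trace ≤ 4 * (t * (P t (T Y X) * (h * P t (T Y X) * h)).trace) := by
    have e : (U * Uᵀ).trace = (Gy * Gyᵀ * (h * (B * B) * h)).trace := by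
      rw [hU, transpose_mul, transpose_mul, hT, hB, P_symm pQ ht,
        show P t (Xᵀ * X) * h * Gy * (Gyᵀ * (h * P t (Xᵀ * X)))
          = P t (Xᵀ * X) * (h * (Gy * Gyᵀ) * h * P t (Xᵀ * X)) by simp only [mul_assoc],
        trace_mul_comm,
        show h * (Gy * Gyᵀ) * h * P t (Xᵀ * X) * P t (Xᵀ * X)
          = h * (Gy * Gyᵀ * (h * (P t (Xᵀ * X) * P t (Xᵀ * X)))) by simp only [mul_assoc],
        trace_mul_comm]
      simp only [mul_assoc]
    have g1 : ((4 * t) • P t (T Y X) - Gy * Gyᵀ).PosSemidef := by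
      have := ((P_mono (psd_mul_tr Y) hTB ht).smul h4.le).add (G_le Y ht hu)
      rwa [smul_sub, sub_add_sub_cancel] at this
    have g2 : (h * P t (T Y X) * h - h * (B * B) * h).PosSemidef := by
      rw [← sub_mul, ← mul_sub]; exact psd_conj bB h hT
    rw [e]
    refine (trace_mul_mono g1 (psd_mul_tr Gy) g2
      (psd_conj (P_psd (T_psd Y X) ht) h hT)).trans_eq ?_
    rw [smul_mul_assoc, trace_smul, smul_eq_mul]; ring
  have bA : (P t (T X Z) - t • (A * Aᵀ)).PosSemidef := by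
    have e : t • (A * Aᵀ) = (1 / 4 : ℝ) • (P (4 * t) R - P (4 * t) R * P (4 * t) R) := by
      rw [sub_sq_eq pR h4, smul_smul, show (1:ℝ) / 4 * (4 * t) = t by ring, hA, transpose_mul,
        res_symm pR h4, hR]
      simp only [mul_assoc]
    have psq : (P (4 * t) R * P (4 * t) R).PosSemidef := by
      have := psd_tr_mul (P (4 * t) R)
      rwa [P_symm pR h4] at this
    have := (((P_mono pR hTA' ht).add (P_four_le pR ht)).add
      ((P_psd pR h4).smul (show (0:ℝ) ≤ 3 / 4 by norm_num))).add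
      (psq.smul (show (0:ℝ) ≤ 1 / 4 by norm_num))
    rw [e]
    rwa [show P t (T X Z) - P t R + (P t R - P (4 * t) R) + (3 / 4 : ℝ) • P (4 * t) R
        + (1 / 4 : ℝ) • (P (4 * t) R * P (4 * t) R)
      = P t (T X Z) - (1 / 4 : ℝ) • (P (4 * t) R - P (4 * t) R * P (4 * t) R) by module] at this
  have bV : t * (Vᵀ * V).trace ≤ 4 * (t * (P t (T X Z) * (h * P t (T X Z) * h)).trace) := by
    have e : t * (Vᵀ * V).trace = (Gzᵀ * Gz * (h * (t • (A * Aᵀ)) * h)).trace := by
      have e0 : Vᵀ * V = Aᵀ * (h * (Gzᵀ * Gz) * h * A) := by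
        rw [hV, transpose_mul, transpose_mul, transpose_mul, hT]
        rw [show Aᵀ * (h * (Gzᵀ * h)) * (h * Gz * h * A)
          = Aᵀ * (h * (Gzᵀ * (h * h) * Gz) * h * A) by simp only [mul_assoc], hh, mul_one]
      rw [e0, trace_mul_comm,
        show h * (Gzᵀ * Gz) * h * A * Aᵀ = h * (Gzᵀ * Gz * (h * (A * Aᵀ))) by
          simp only [mul_assoc],
        trace_mul_comm, mul_smul_comm, smul_mul_assoc, mul_smul_comm, trace_smul, smul_eq_mul]
      simp only [mul_assoc]
    have g1 : ((4 * t) • P t (T X Z) - Gzᵀ * Gz).PosSemidef := by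
      have := ((P_mono (psd_tr_mul Z) hTA ht).smul h4.le).add (G_le' Z ht hv)
      rwa [smul_sub, sub_add_sub_cancel] at this
    have g2 : (h * P t (T X Z) * h - h * (t • (A * Aᵀ)) * h).PosSemidef := by
      rw [← sub_mul, ← mul_sub]; exact psd_conj bA h hT
    rw [e]
    refine (trace_mul_mono g1 (psd_tr_mul Gz) g2
      (psd_conj (P_psd (T_psd X Z) ht) h hT)).trans_eq ?_
    rw [smul_mul_assoc, trace_smul, smul_eq_mul]; ring
  have am := trace_amgm U V (inv_pos.2 hs)
  rw [inv_inv] at am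
  rw [e1, abs_mul, abs_of_pos (by linarith : (0:ℝ) < 3 * t)]
  refine (mul_le_mul_of_nonneg_left am (by linarith)).trans ?_
  have := mul_le_mul_of_nonneg_left bU hs.le
  have := mul_le_mul_of_nonneg_left bV hs.le
  have est : 3 * t * ((s⁻¹ * (U * Uᵀ).trace + s * (Vᵀ * V).trace) / 2)
      = 3 / 2 * (s * (U * Uᵀ).trace + s * (t * (Vᵀ * V).trace)) := by
    rw [hts]; field_simp
  rw [est]; linarith

lemma form_cyc (h X Y Z : Matrix ι ι ℝ) : form h X Y Z = form h Y Z X := by
  rw [form, show h * X * h * Y * h * Z = h * X * (h * Y * h * Z) by simp only [mul_assoc],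
    trace_mul_comm, form]
  simp only [mul_assoc]

/-- Regularised form. -/
noncomputable def reg (t : ℝ) (h X Y Z : Matrix ι ι ℝ) : ℝ :=
  form h (G t X) (G t Y) (G t Z)

lemma reg_step (h X Y Z : Matrix ι ι ℝ) (hT : hᵀ = h) (hh : h * h = 1) {s t : ℝ}
    (hs : 0 < s) (hts : t = s ^ 2) :
    |reg (4 * t) h X Y Z - reg t h X Y Z| ≤
      12 * s * (t * (P t (T X Z) * (h * P t (T X Z) * h)).trace
        + t * (P t (T Y X) * (h * P t (T Y X) * h)).trace
        + t * (P t (T Z Y) * (h * P t (T Z Y) * h)).trace) := by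
  have a := term_le h X Y Z hT hh hs hts (u := 4 * t) (v := 4 * t) (.inr rfl) (.inr rfl)
  have b := term_le h Y Z X hT hh hs hts (u := 4 * t) (v := t) (.inr rfl) (.inl rfl)
  have c := term_le h Z X Y hT hh hs hts (u := t) (v := t) (.inl rfl) (.inl rfl)
  rw [← form_cyc] at b
  rw [← form_cyc, ← form_cyc] at c
  have e : reg (4 * t) h X Y Z - reg t h X Y Z
      = form h (G (4 * t) X - G t X) (G (4 * t) Y) (G (4 * t) Z)
      + form h (G t X) (G (4 * t) Y - G t Y) (G (4 * t) Z)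
      + form h (G t X) (G t Y) (G (4 * t) Z - G t Z) := by
    simp only [reg, form, mul_sub, sub_mul, trace_sub]; ring
  rw [e]
  refine (abs_add_three _ _ _).trans ?_
  linarith

/-- Assemble four children into a normalised parent. -/
noncomputable def par (f : Fin 2 → Fin 2 → Matrix ι ι ℝ) : Matrix (ι × Fin 2) (ι × Fin 2) ℝ :=
  Matrix.of fun p q => (1 / 2 : ℝ) * f p.2 q.2 p.1 q.1

/-- Sign of the top bit. -/
def hm (ι : Type*) [DecidableEq ι] : Matrix (ι × Fin 2) (ι × Fin 2) ℝ :=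
  Matrix.diagonal fun p => if p.2 = 0 then 1 else -1

lemma hm_transpose : (hm ι)ᵀ = hm ι := diagonal_transpose _

lemma hm_mul : hm ι * hm ι = 1 := by
  rw [hm, diagonal_mul_diagonal, ← diagonal_one]
  congr 1; funext p; split_ifs <;> norm_num

lemma par_transpose (f : Fin 2 → Fin 2 → Matrix ι ι ℝ) :
    (par f)ᵀ = par fun i j => (f j i)ᵀ := rfl

lemma par_pinch (f : Fin 2 → Fin 2 → Matrix ι ι ℝ) :
    par f * (par f)ᵀ + hm ι * (par f * (par f)ᵀ) * hm ι =
      blockDiagonal fun i => (1 / 2 : ℝ) • (f i 0 * (f i 0)ᵀ + f i 1 * (f i 1)ᵀ) := by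
  ext ⟨p, i⟩ ⟨q, j⟩
  rw [Matrix.add_apply, hm, Matrix.mul_diagonal, Matrix.diagonal_mul, blockDiagonal_apply]
  simp only [Matrix.mul_apply, transpose_apply, par, of_apply, Fintype.sum_prod_type,
    Fin.sum_univ_two, Matrix.smul_apply, Matrix.add_apply, smul_eq_mul]
  fin_cases i <;> fin_cases j <;>
    simp [mul_add, Finset.sum_add_distrib, Finset.mul_sum] <;>
    first
    | (simp only [← Finset.sum_add_distrib]; exact Finset.sum_congr rfl fun _ _ => by ring)
    | ring

lemma psi_conj (h S : Matrix ι ι ℝ) (hh : h * h = 1) (t : ℝ) :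
    psi t (h * S * h) = psi t S := by
  have hd : h.det * h.det = 1 := by rw [← det_mul, hh, det_one]
  have e : h * S * h + t • 1 = h * (S + t • 1) * h := by
    rw [mul_add, add_mul, mul_smul_comm, mul_one, smul_mul_assoc, hh]
  rw [psi, psi, e, trace_mul_cycle, hh, one_mul, det_mul, det_mul, mul_right_comm, hd, one_mul]

lemma P_conj (h : Matrix ι ι ℝ) {S : Matrix ι ι ℝ} (hS : S.PosSemidef) (hh : h * h = 1) {t : ℝ}
    (ht : 0 < t) : P t (h * S * h) = h * P t S * h := by
  have e : h * S * h + t • 1 = h * (S + t • 1) * h := by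
    rw [mul_add, add_mul, mul_smul_comm, mul_one, smul_mul_assoc, hh]
  have r : Res t (h * S * h) = h * Res t S * h := by
    rw [Res, e]
    apply Matrix.inv_eq_left_inv
    rw [show h * Res t S * h * (h * (S + t • 1) * h)
      = h * (Res t S * (h * h) * (S + t • 1)) * h by simp only [mul_assoc], hh, mul_one,
      res_mul hS ht, mul_one, hh]
  rw [P, P, r, mul_sub, sub_mul, mul_one, hh, mul_smul_comm, smul_mul_assoc]

lemma psi_blockDiagonal (S : Fin 2 → Matrix ι ι ℝ) (hS : ∀ i, (S i).PosSemidef) {t : ℝ}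
    (ht : 0 < t) : psi t (blockDiagonal S) = psi t (S 0) + psi t (S 1) := by
  have e : blockDiagonal S + t • 1 = blockDiagonal fun i => S i + t • 1 := by
    rw [← blockDiagonal_one, ← blockDiagonal_smul, ← blockDiagonal_add]; rfl
  rw [psi, psi, psi, e, trace_blockDiagonal, det_blockDiagonal, Fin.sum_univ_two,
    Fin.prod_univ_two, Real.log_mul (shift_posDef (hS 0) ht).det_pos.ne'
    (shift_posDef (hS 1) ht).det_pos.ne', Fintype.card_prod, Fintype.card_fin]
  push_cast; ring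

lemma junction (f g : Fin 2 → Fin 2 → Matrix ι ι ℝ) {t : ℝ} (ht : 0 < t) :
    t * (P t (T (par f) (par g)) * (hm ι * P t (T (par f) (par g)) * hm ι)).trace ≤
      2 * ((psi t (T (f 0 0) (g 0 0)) + psi t (T (f 0 1) (g 1 0))
        + psi t (T (f 1 0) (g 1 1)) + psi t (T (f 1 1) (g 0 1))) / 4
        - psi t (T (par f) (par g))) := by
  set S := T (par f) (par g) with hS
  have hV : fromCols (par f) (par g)ᵀ * (fromCols (par f) (par g)ᵀ)ᵀ = S := by
    rw [transpose_fromCols, transpose_transpose, fromCols_mul_fromRows, hS, T]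
  have h1 := psi_cross (fromCols (par f) (par g)ᵀ)
    (psd_conj (T_psd (par f) (par g)) (hm ι) hm_transpose) ht
  rw [hV, ← hS, P_conj _ (hS ▸ T_psd _ _) hm_mul ht, psi_conj _ _ hm_mul] at h1
  have hd : S + hm ι * S * hm ι = blockDiagonal fun i =>
      (1 / 2 : ℝ) • (T (f i 0) (g i i) + T (f i 1) (g (i + 1) i)) := by
    have a := par_pinch f
    have b := par_pinch fun i j => (g j i)ᵀ
    rw [← par_transpose, transpose_transpose] at b
    rw [hS, T, mul_add, add_mul, add_add_add_comm, a, b, ← blockDiagonal_add]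
    congr 1
    funext i
    fin_cases i <;> simp [T] <;> module
  have p0 : ∀ i, ((1 / 2 : ℝ) • (T (f i 0) (g i i) + T (f i 1) (g (i + 1) i))).PosSemidef :=
    fun i => ((T_psd _ _).add (T_psd _ _)).smul (by norm_num)
  rw [hd, psi_blockDiagonal _ p0 ht] at h1
  have c0 := psi_convex (T_psd (f 0 0) (g 0 0)) (T_psd (f 0 1) (g 1 0)) ht
  have c1 := psi_convex (T_psd (f 1 0) (g 1 1)) (T_psd (f 1 1) (g 0 1)) ht
  have e11 : (1 : Fin 2) + 1 = 0 := rfl
  simp only [zero_add, e11] at h1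
  linarith

/-- One scale: the increment is bounded by the decrease of the potential, and the potential
is monotone. -/
lemma block_step (X Y Z : Fin 2 → Fin 2 → Matrix ι ι ℝ) {s t : ℝ} (hs : 0 < s)
    (hts : t = s ^ 2) :
    |reg (4 * t) (hm ι) (par X) (par Y) (par Z) - reg t (hm ι) (par X) (par Y) (par Z)| ≤
      24 * s * ((∑ i : Fin 2, ∑ j : Fin 2, Om t (X i j) (Y j (i + j)) (Z (i + j) i)) / 4
        - Om t (par X) (par Y) (par Z)) := by
  have ht : 0 < t := by rw [hts]; positivity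
  refine (reg_step (hm ι) _ _ _ hm_transpose hm_mul hs hts).trans ?_
  have a := junction X Z ht
  have b := junction Y X ht
  have c := junction Z Y ht
  have e11 : (1 : Fin 2) + 1 = 0 := rfl
  simp only [Fin.sum_univ_two, Om, zero_add, add_zero, e11]
  nlinarith [mul_le_mul_of_nonneg_left (add_le_add (add_le_add a b) c) hs.le]

end Vale.Agent.P075
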