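import Mathlib

/-! The dyadic triangular Hilbert form of problem P075, in the problem's notation. -/

open MeasureTheory Set

namespace Vale.Agent.P075

/-- The dyadic interval `[2^k n, 2^k (n+1))`. -/
def dy (k : ℤ) (n : ℕ) : Set ℝ := Ico ((2 : ℝ) ^ k * n) ((2 : ℝ) ^ k * (n + 1))

/-- The Haar function `1_left - 1_right` of the dyadic interval with index `n` at scale `k`. -/
noncomputable def haar (k : ℤ) (n : ℕ) : ℝ → ℝ :=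
  (Ico ((2 : ℝ) ^ k * n) ((2 : ℝ) ^ k * (n + 1 / 2))).indicator 1
    - (Ico ((2 : ℝ) ^ k * (n + 1 / 2)) ((2 : ℝ) ^ k * (n + 1))).indicator 1

/-- The localised form `L_I` for the triple of intervals with indices `n`. -/
noncomputable def localForm (F₀ F₁ F₂ : ℝ × ℝ → ℝ) (k : ℤ) (n : ℕ × ℕ × ℕ) : ℝ :=
  ((2 : ℝ) ^ k)⁻¹ * ∫ x in dy k n.1 ×ˢ (dy k n.2.1 ×ˢ dy k n.2.2),
    F₀ (x.1, x.2.1) * F₁ (x.2.1, x.2.2) * F₂ (x.2.2, x.1)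
      * (haar k n.1 x.1 * haar k n.2.1 x.2.1 * haar k n.2.2 x.2.2)

/-- The index triples `A_k`: bitwise XOR equal to zero. -/
def xorZero : Set (ℕ × ℕ × ℕ) := {n | n.1 ^^^ n.2.1 ^^^ n.2.2 = 0}

/-- The sum of `L_I` over `A_k`. -/
noncomputable def scaleForm (F₀ F₁ F₂ : ℝ × ℝ → ℝ) (k : ℤ) : ℝ :=
  ∑' n : xorZero, localForm F₀ F₁ F₂ k n

/-- The dyadic triangular Hilbert form `Λ^d_{S,ε}`. -/
noncomputable def dyadicForm (S : Finset ℤ) (ε : ℤ → ℝ) (F₀ F₁ F₂ : ℝ × ℝ → ℝ) : ℝ :=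
  ∑ k ∈ S, ε k * scaleForm F₀ F₁ F₂ k

/-- The `L³` norm on the quadrant `[0,∞)²`. -/
noncomputable def norm3 (F : ℝ × ℝ → ℝ) : ℝ :=
  (∫ x in Ici (0 : ℝ) ×ˢ Ici (0 : ℝ), |F x| ^ 3) ^ ((1 : ℝ) / 3)

end Vale.Agent.P075
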