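import Vale.Agent.P075.Block

/-! Summation over scales for the finite dyadic model. -/

open Matrix Finset Filter Topology

namespace Vale.Agent.P075

/-- Index type of a dyadic block of side `2 ^ m`. -/
def Ix : ℕ → Type
  | 0 => Unit
  | m + 1 => Ix m × Fin 2

noncomputable instance instFintypeIx : ∀ m, Fintype (Ix m)
  | 0 => inferInstanceAs (Fintype Unit)
  | m + 1 => @instFintypeProd _ _ (instFintypeIx m) _

noncomputable instance instDecidableEqIx : ∀ m, DecidableEq (Ix m)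
  | 0 => inferInstanceAs (DecidableEq Unit)
  | m + 1 => @instDecidableEqProd _ _ (instDecidableEqIx m) _

/-- Position inside a block. -/
def ixVal : ∀ m, Ix m → ℕ
  | 0, _ => 0
  | m + 1, (p, i) => (i : ℕ) * 2 ^ m + ixVal m p

/-- Normalised block `(a, b)` of side `2 ^ m`. -/
noncomputable def blk (f : ℕ → ℕ → ℝ) (m a b : ℕ) : Matrix (Ix m) (Ix m) ℝ :=
  Matrix.of fun p q => (1 / 2 ^ m : ℝ) * f (a * 2 ^ m + ixVal m p) (b * 2 ^ m + ixVal m q)

lemma blk_succ (f : ℕ → ℕ → ℝ) (m a b : ℕ) :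
    blk f (m + 1) a b
      = par fun i j : Fin 2 => blk f m (2 * a + (i : ℕ)) (2 * b + (j : ℕ)) := by
  ext ⟨p, i⟩ ⟨q, j⟩
  change (1 / 2 ^ (m + 1) : ℝ) * f (a * 2 ^ (m + 1) + ((i : ℕ) * 2 ^ m + ixVal m p))
      (b * 2 ^ (m + 1) + ((j : ℕ) * 2 ^ m + ixVal m q))
    = (1 / 2 : ℝ) * ((1 / 2 ^ m : ℝ) * f ((2 * a + (i : ℕ)) * 2 ^ m + ixVal m p)
      ((2 * b + (j : ℕ)) * 2 ^ m + ixVal m q))
  rw [show a * 2 ^ (m + 1) + ((i : ℕ) * 2 ^ m + ixVal m p)
      = (2 * a + (i : ℕ)) * 2 ^ m + ixVal m p by ring,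
    show b * 2 ^ (m + 1) + ((j : ℕ) * 2 ^ m + ixVal m q)
      = (2 * b + (j : ℕ)) * 2 ^ m + ixVal m q by ring, pow_succ]
  ring

lemma xor_two_mul (a b : ℕ) (i j : Fin 2) :
    (2 * a + (i : ℕ)) ^^^ (2 * b + (j : ℕ)) = 2 * (a ^^^ b) + ((i + j : Fin 2) : ℕ) := by
  have hd : ((2 * a + (i : ℕ)) ^^^ (2 * b + (j : ℕ))) / 2 = a ^^^ b := by
    rw [Nat.xor_div_two, show (2 * a + (i : ℕ)) / 2 = a by omega,
      show (2 * b + (j : ℕ)) / 2 = b by omega]
  have hm : ((2 * a + (i : ℕ)) ^^^ (2 * b + (j : ℕ))) % 2 = ((i + j : Fin 2) : ℕ) := by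
    rw [show ((2 * a + (i : ℕ)) ^^^ (2 * b + (j : ℕ))) % 2
      = ((2 * a + (i : ℕ)) % 2) ^^^ ((2 * b + (j : ℕ)) % 2) from Nat.xor_mod_two_pow (n := 1),
      show (2 * a + (i : ℕ)) % 2 = i by omega, show (2 * b + (j : ℕ)) % 2 = j by omega]
    fin_cases i <;> fin_cases j <;> rfl
  omega

lemma sum_range_double (g : ℕ → ℝ) (N : ℕ) :
    ∑ a ∈ range (2 * N), g a = ∑ a ∈ range N, ∑ i : Fin 2, g (2 * a + (i : ℕ)) := by
  induction N with
  | zero => simp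
  | succ N ih =>
    rw [show 2 * (N + 1) = 2 * N + 1 + 1 by ring, sum_range_succ, sum_range_succ, ih,
      sum_range_succ _ N, Fin.sum_univ_two]
    simp [add_assoc]

variable (f₀ f₁ f₂ : ℕ → ℕ → ℝ)

/-- Potential at level `m` with `N` blocks per axis. -/
noncomputable def Ow (m N : ℕ) (t : ℝ) : ℝ :=
  4 ^ m * ∑ a ∈ range N, ∑ b ∈ range N,
    Om t (blk f₀ m a b) (blk f₁ m b (a ^^^ b)) (blk f₂ m (a ^^^ b) a)

/-- Form at level `m + 1` with `N` blocks per axis. -/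
noncomputable def Df (m N : ℕ)
    (g : Matrix (Ix (m + 1)) (Ix (m + 1)) ℝ → Matrix (Ix (m + 1)) (Ix (m + 1)) ℝ →
      Matrix (Ix (m + 1)) (Ix (m + 1)) ℝ → ℝ) : ℝ :=
  4 ^ (m + 1) * ∑ a ∈ range N, ∑ b ∈ range N,
    g (blk f₀ (m + 1) a b) (blk f₁ (m + 1) b (a ^^^ b)) (blk f₂ (m + 1) (a ^^^ b) a)

lemma Om_nonneg {ι : Type*} [Fintype ι] [DecidableEq ι] (X Y Z : Matrix ι ι ℝ) {t : ℝ}
    (ht : 0 < t) : 0 ≤ Om t X Y Z :=
  add_nonneg (add_nonneg (psi_nonneg (T_psd X Z) ht) (psi_nonneg (T_psd Y X) ht))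
    (psi_nonneg (T_psd Z Y) ht)

lemma level_step (m N : ℕ) {s t : ℝ} (hs : 0 < s) (hts : t = s ^ 2) :
    |Df f₀ f₁ f₂ m N (reg (4 * t) (hm (Ix m))) - Df f₀ f₁ f₂ m N (reg t (hm (Ix m)))|
      ≤ 24 * s * (Ow f₀ f₁ f₂ m (2 * N) t - Ow f₀ f₁ f₂ (m + 1) N t) := by
  have hsplit : Ow f₀ f₁ f₂ m (2 * N) t = 4 ^ m * ∑ a ∈ range N, ∑ b ∈ range N,
      ∑ i : Fin 2, ∑ j : Fin 2,
        Om t (blk f₀ m (2 * a + (i : ℕ)) (2 * b + (j : ℕ)))
          (blk f₁ m (2 * b + (j : ℕ)) (2 * (a ^^^ b) + ((i + j : Fin 2) : ℕ)))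
          (blk f₂ m (2 * (a ^^^ b) + ((i + j : Fin 2) : ℕ)) (2 * a + (i : ℕ))) := by
    unfold Ow
    congr 1
    rw [sum_range_double]
    refine sum_congr rfl fun a _ => ?_
    conv_lhs => arg 2; ext i; rw [sum_range_double]
    rw [sum_comm]
    refine sum_congr rfl fun b _ => sum_congr rfl fun i _ => sum_congr rfl fun j _ => ?_
    rw [xor_two_mul]
  unfold Df
  rw [← mul_sub, abs_mul, abs_of_pos (by positivity), ← sum_sub_distrib]
  simp_rw [← sum_sub_distrib]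
  calc (4:ℝ) ^ (m + 1) * |∑ a ∈ range N, ∑ b ∈ range N, _|
      ≤ (4:ℝ) ^ (m + 1) * ∑ a ∈ range N, ∑ b ∈ range N, (24 * s *
        ((∑ i : Fin 2, ∑ j : Fin 2,
          Om t (blk f₀ m (2 * a + (i : ℕ)) (2 * b + (j : ℕ)))
            (blk f₁ m (2 * b + (j : ℕ)) (2 * (a ^^^ b) + ((i + j : Fin 2) : ℕ)))
            (blk f₂ m (2 * (a ^^^ b) + ((i + j : Fin 2) : ℕ)) (2 * a + (i : ℕ)))) / 4
        - Om t (blk f₀ (m + 1) a b) (blk f₁ (m + 1) b (a ^^^ b))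
            (blk f₂ (m + 1) (a ^^^ b) a))) := by
        refine mul_le_mul_of_nonneg_left ?_ (by positivity)
        refine (abs_sum_le_sum_abs _ _).trans (sum_le_sum fun a _ => ?_)
        refine (abs_sum_le_sum_abs _ _).trans (sum_le_sum fun b _ => ?_)
        have h := block_step (fun i j => blk f₀ m (2 * a + (i : ℕ)) (2 * b + (j : ℕ)))
          (fun i j => blk f₁ m (2 * b + (i : ℕ)) (2 * (a ^^^ b) + (j : ℕ)))
          (fun i j => blk f₂ m (2 * (a ^^^ b) + (i : ℕ)) (2 * a + (j : ℕ))) hs hts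
        rw [← blk_succ, ← blk_succ, ← blk_succ] at h
        exact h
    _ = _ := by
        rw [hsplit]
        unfold Ow
        simp only [mul_sub, sum_sub_distrib, ← mul_sum, ← sum_div]
        ring

/-- Scalar leaf function. -/
noncomputable def phi (t x : ℝ) : ℝ := x - t * (Real.log (x + t) - Real.log t)

/-- The only index of a block of side one. -/
def ix0 : Ix 0 := ()

lemma psi_leaf (S : Matrix (Ix 0) (Ix 0) ℝ) (t : ℝ) :
    psi t S = phi t (S ix0 ix0) := by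
  change @psi Unit _ _ t S = _
  unfold psi phi
  rw [det_unique, Fintype.card_unit]
  have e : (S + t • (1 : Matrix (Ix 0) (Ix 0) ℝ)) () () = S () () + t := by
    change S () () + t * (1 : Matrix Unit Unit ℝ) () () = _
    simp
  erw [e]
  simp [Matrix.trace, Matrix.diag]
  rfl


lemma phi_le {t x : ℝ} (ht : 0 < t) (hx : 0 ≤ x) : phi t x ≤ x ∧ phi t x ≤ x ^ 2 / t := by
  have hlog : x / (x + t) ≤ Real.log (x + t) - Real.log t := by
    rw [← Real.log_div (by positivity) ht.ne']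
    refine le_trans (le_of_eq ?_) (Real.one_sub_inv_le_log_of_pos (by positivity))
    field_simp; ring
  have h2 := mul_le_mul_of_nonneg_left hlog ht.le
  have h1 : 0 ≤ t * (x / (x + t)) := by positivity
  have h3 : x - t * (x / (x + t)) ≤ x ^ 2 / t := by
    rw [show x - t * (x / (x + t)) = x ^ 2 / (x + t) by field_simp; ring]
    exact div_le_div_of_nonneg_left (by positivity) ht (by linarith)
  constructor <;> (unfold phi; linarith)

lemma geom_sum_le (n : ℕ) : ∑ i ∈ range n, ((1:ℝ) / 2) ^ i ≤ 2 := sum_geometric_two_le n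

lemma leaf_sum (r : ℝ) (hr : 0 ≤ r) (N : ℕ) :
    ∑ i ∈ range (2 * N), (2:ℝ) ^ ((i:ℤ) - N) * phi (((2:ℝ) ^ ((i:ℤ) - N)) ^ 2) (r ^ 2)
      ≤ 4 * r ^ 3 := by
  set φ : ℕ → ℝ := fun i => (2:ℝ) ^ ((i:ℤ) - N) with hφ
  have hpos : ∀ i, 0 < φ i := fun i => zpow_pos two_pos _
  change ∑ i ∈ range (2 * N), φ i * phi (φ i ^ 2) (r ^ 2) ≤ _
  have hterm : ∀ i, φ i * phi (φ i ^ 2) (r ^ 2) ≤ φ i * r ^ 2 ∧
      φ i * phi (φ i ^ 2) (r ^ 2) ≤ r ^ 4 / φ i := by
    intro i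
    obtain ⟨a, b⟩ := phi_le (pow_pos (hpos i) 2) (sq_nonneg r)
    refine ⟨mul_le_mul_of_nonneg_left a (hpos i).le,
      (mul_le_mul_of_nonneg_left b (hpos i).le).trans_eq ?_⟩
    have := (hpos i).ne'
    field_simp
  rcases hr.eq_or_lt with rfl | hr
  · refine (sum_nonpos fun i _ => ?_).trans (by norm_num)
    simpa using (hterm i).1
  obtain ⟨k, hk1, hk2⟩ := exists_mem_Ico_zpow (y := (2:ℝ)) hr one_lt_two
  rw [← sum_filter_add_sum_filter_not (range (2 * N)) (fun i => (i:ℤ) - N ≤ k)]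
  have A : ∑ i ∈ range (2 * N) with ((i:ℕ):ℤ) - N ≤ k, φ i * phi (φ i ^ 2) (r ^ 2) ≤ 2 * r ^ 3 := by
    refine (sum_le_sum fun i _ => (hterm i).1).trans ?_
    rw [← sum_mul]
    have : ∑ i ∈ range (2 * N) with ((i:ℕ):ℤ) - N ≤ k, φ i ≤ 2 * r := by
      set A := {i ∈ range (2 * N) | ((i:ℕ):ℤ) - N ≤ k}
      have hmem : ∀ i ∈ A, (i:ℤ) - N ≤ k := fun i hi => (mem_filter.1 hi).2
      calc ∑ i ∈ A, φ i = ∑ i ∈ A, (2:ℝ) ^ k * (1 / 2) ^ (k - ((i:ℤ) - N)).toNat := by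
            refine sum_congr rfl fun i hi => ?_
            have := hmem i hi
            simp only [hφ]
            rw [one_div, ← zpow_natCast, _root_.inv_zpow', Int.toNat_of_nonneg (by omega),
              ← zpow_add₀ (two_ne_zero)]
            congr 1; ring
        _ = (2:ℝ) ^ k * ∑ j ∈ A.image (fun i : ℕ => (k - ((i:ℤ) - N)).toNat), (1 / 2 : ℝ) ^ j := by
            rw [← mul_sum, sum_image]
            intro i hi i' hi' h
            have := hmem i hi; have := hmem i' hi'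
            simp only at h
            omega
        _ ≤ (2:ℝ) ^ k * 2 := by
            refine mul_le_mul_of_nonneg_left ?_ (zpow_pos two_pos _).le
            obtain ⟨n, hn⟩ := exists_nat_subset_range (A.image (fun i : ℕ => (k - ((i:ℤ) - N)).toNat))
            exact (sum_le_sum_of_subset_of_nonneg hn fun _ _ _ => by positivity).trans
              (geom_sum_le n)
        _ ≤ 2 * r := by linarith
    calc _ ≤ 2 * r * r ^ 2 := mul_le_mul_of_nonneg_right this (sq_nonneg r)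
      _ = 2 * r ^ 3 := by ring
  have B : ∑ i ∈ range (2 * N) with ¬ ((i:ℕ):ℤ) - N ≤ k, φ i * phi (φ i ^ 2) (r ^ 2)
      ≤ 2 * r ^ 3 := by
    refine (sum_le_sum fun i _ => (hterm i).2).trans ?_
    simp_rw [div_eq_mul_inv]
    rw [← mul_sum]
    have : ∑ i ∈ range (2 * N) with ¬ ((i:ℕ):ℤ) - N ≤ k, (φ i)⁻¹ ≤ 2 * r⁻¹ := by
      set A := {i ∈ range (2 * N) | ¬ ((i:ℕ):ℤ) - N ≤ k}
      have hmem : ∀ i ∈ A, k + 1 ≤ (i:ℤ) - N := fun i hi => by
        have := (mem_filter.1 hi).2; omega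
      calc ∑ i ∈ A, (φ i)⁻¹
          = ∑ i ∈ A, ((2:ℝ) ^ (k + 1))⁻¹ * (1 / 2) ^ ((i:ℤ) - N - (k + 1)).toNat := by
            refine sum_congr rfl fun i hi => ?_
            have := hmem i hi
            simp only [hφ]
            rw [one_div, ← zpow_natCast, _root_.inv_zpow', Int.toNat_of_nonneg (by omega),
              ← _root_.zpow_neg, ← _root_.zpow_neg, ← zpow_add₀ (two_ne_zero)]
            congr 1; ring
        _ = ((2:ℝ) ^ (k + 1))⁻¹
            * ∑ j ∈ A.image (fun i : ℕ => ((i:ℤ) - N - (k + 1)).toNat), (1 / 2 : ℝ) ^ j := by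
            rw [← mul_sum, sum_image]
            intro i hi i' hi' h
            have := hmem i hi; have := hmem i' hi'
            simp only at h
            omega
        _ ≤ ((2:ℝ) ^ (k + 1))⁻¹ * 2 := by
            refine mul_le_mul_of_nonneg_left ?_ (by positivity)
            obtain ⟨n, hn⟩ :=
              exists_nat_subset_range (A.image (fun i : ℕ => ((i:ℤ) - N - (k + 1)).toNat))
            exact (sum_le_sum_of_subset_of_nonneg hn fun _ _ _ => by positivity).trans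
              (geom_sum_le n)
        _ ≤ 2 * r⁻¹ := by
            have := inv_anti₀ hr hk2.le
            linarith
    calc r ^ 4 * _ ≤ r ^ 4 * (2 * r⁻¹) := mul_le_mul_of_nonneg_left this (by positivity)
      _ = 2 * r ^ 3 := by field_simp
  linarith

lemma leaf_pair (x z : ℝ) (N : ℕ) :
    ∑ i ∈ range (2 * N), (2:ℝ) ^ ((i:ℤ) - N) * phi (((2:ℝ) ^ ((i:ℤ) - N)) ^ 2) (x * x + z * z)
      ≤ 16 * (|x| ^ 3 + |z| ^ 3) := by
  set r := Real.sqrt (x * x + z * z)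
  have hr : r ^ 2 = x * x + z * z := Real.sq_sqrt (add_nonneg (mul_self_nonneg x) (mul_self_nonneg z))
  have h := leaf_sum r (Real.sqrt_nonneg _) N
  rw [hr] at h
  refine h.trans ?_
  have hle : r ≤ |x| + |z| := by
    apply Real.sqrt_le_iff.2 ⟨by positivity, ?_⟩
    nlinarith [sq_abs x, sq_abs z, mul_nonneg (abs_nonneg x) (abs_nonneg z)]
  have h3 := pow_le_pow_left₀ (Real.sqrt_nonneg _) hle 3
  nlinarith [mul_nonneg (add_nonneg (abs_nonneg x) (abs_nonneg z)) (sq_nonneg (|x| - |z|))]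

/-- Sum of cubes on the grid. -/
noncomputable def N3 (f : ℕ → ℕ → ℝ) (L : ℕ) : ℝ :=
  ∑ a ∈ range L, ∑ b ∈ range L, |f a b| ^ 3

lemma sum_xor (M : ℕ) (g : ℕ → ℝ) {b : ℕ} (hb : b < 2 ^ M) :
    ∑ a ∈ range (2 ^ M), g (a ^^^ b) = ∑ a ∈ range (2 ^ M), g a := by
  refine sum_nbij' (fun a => a ^^^ b) (fun a => a ^^^ b) ?_ ?_ ?_ ?_ ?_ <;> intro a ha
  · simp only [mem_range] at ha ⊢; exact Nat.xor_lt_two_pow ha hb
  · simp only [mem_range] at ha ⊢; exact Nat.xor_lt_two_pow ha hb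
  · exact Nat.xor_xor_cancel_right a b
  · exact Nat.xor_xor_cancel_right a b
  · rfl

lemma Ow_leaf (M N : ℕ) :
    ∑ i ∈ range (2 * N), (2:ℝ) ^ ((i:ℤ) - N)
        * Ow f₀ f₁ f₂ 0 (2 ^ M) (((2:ℝ) ^ ((i:ℤ) - N)) ^ 2)
      ≤ 32 * (N3 f₀ (2 ^ M) + N3 f₁ (2 ^ M) + N3 f₂ (2 ^ M)) := by
  have hOm : ∀ t a b c, Om t (blk f₀ 0 a b) (blk f₁ 0 b c) (blk f₂ 0 c a)
      = phi t (f₀ a b * f₀ a b + f₂ c a * f₂ c a) + phi t (f₁ b c * f₁ b c + f₀ a b * f₀ a b)
        + phi t (f₂ c a * f₂ c a + f₁ b c * f₁ b c) := by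
    intro t a b c
    have hmul : ∀ A B : Matrix (Ix 0) (Ix 0) ℝ, (A * B) ix0 ix0 = A ix0 ix0 * B ix0 ix0 := fun A B =>
      show ∑ j : Unit, A () j * B j () = _ from Fintype.sum_unique _
    have hblk : ∀ (f : ℕ → ℕ → ℝ) a b, blk f 0 a b ix0 ix0 = f a b := fun f a b => by
      change (1 / 2 ^ 0 : ℝ) * f (a * 2 ^ 0 + 0) (b * 2 ^ 0 + 0) = _
      simp
    simp only [Om, psi_leaf, T, Matrix.add_apply]
    rw [hmul, hmul, hmul, hmul, hmul, hmul]
    simp only [Matrix.transpose_apply]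
    rw [hblk, hblk, hblk]
  calc _ = ∑ a ∈ range (2 ^ M), ∑ b ∈ range (2 ^ M), ∑ i ∈ range (2 * N),
        (2:ℝ) ^ ((i:ℤ) - N) * Om (((2:ℝ) ^ ((i:ℤ) - N)) ^ 2) (blk f₀ 0 a b)
          (blk f₁ 0 b (a ^^^ b)) (blk f₂ 0 (a ^^^ b) a) := by
        simp only [Ow, pow_zero, one_mul, mul_sum]
        rw [sum_comm]
        exact sum_congr rfl fun a _ => sum_comm
    _ ≤ ∑ a ∈ range (2 ^ M), ∑ b ∈ range (2 ^ M),
        (32 * |f₀ a b| ^ 3 + 32 * |f₁ b (a ^^^ b)| ^ 3 + 32 * |f₂ (a ^^^ b) a| ^ 3) := by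
        refine sum_le_sum fun a _ => sum_le_sum fun b _ => ?_
        simp only [hOm, mul_add, sum_add_distrib]
        linarith [leaf_pair (f₀ a b) (f₂ (a ^^^ b) a) N, leaf_pair (f₁ b (a ^^^ b)) (f₀ a b) N,
          leaf_pair (f₂ (a ^^^ b) a) (f₁ b (a ^^^ b)) N]
    _ = _ := by
        simp only [sum_add_distrib, ← mul_sum, N3]
        have e1 : ∑ a ∈ range (2 ^ M), ∑ b ∈ range (2 ^ M), |f₁ b (a ^^^ b)| ^ 3
            = ∑ a ∈ range (2 ^ M), ∑ b ∈ range (2 ^ M), |f₁ a b| ^ 3 := by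
          rw [sum_comm]
          exact sum_congr rfl fun b hb =>
            sum_xor M (fun c => |f₁ b c| ^ 3) (mem_range.1 hb)
        have e2 : ∑ a ∈ range (2 ^ M), ∑ b ∈ range (2 ^ M), |f₂ (a ^^^ b) a| ^ 3
            = ∑ a ∈ range (2 ^ M), ∑ b ∈ range (2 ^ M), |f₂ a b| ^ 3 := by
          rw [sum_comm (f := fun a b => |f₂ a b| ^ 3)]
          refine sum_congr rfl fun a ha => ?_
          rw [← sum_xor M (fun c => |f₂ c a| ^ 3) (mem_range.1 ha)]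
          exact sum_congr rfl fun b _ => by rw [Nat.xor_comm]
        rw [e1, e2]; ring

lemma entry_sq_le {ι : Type*} [Fintype ι] (A : Matrix ι ι ℝ) (p q : ι) :
    A p q ^ 2 ≤ (A * Aᵀ).trace := by
  have h : (A * Aᵀ).trace = ∑ a, ∑ b, A a b ^ 2 := by
    simp [trace, Matrix.diag, Matrix.mul_apply, sq]
  rw [h]
  exact le_trans (single_le_sum (f := fun b => A p b ^ 2) (fun b _ => sq_nonneg _) (mem_univ q))
    (single_le_sum (f := fun a => ∑ b, A a b ^ 2)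
      (fun a _ => sum_nonneg fun b _ => sq_nonneg _) (mem_univ p))

lemma G_small {ι : Type*} [Fintype ι] [DecidableEq ι] (X : Matrix ι ι ℝ) {t : ℝ} (ht : 0 < t)
    (p q : ι) : G t X p q ^ 2 ≤ t * Fintype.card ι := by
  refine (entry_sq_le _ p q).trans ?_
  have hR := psd_mul_tr X
  have h1 := (G_le_self X ht).trace_nonneg
  have h2 : (P t (X * Xᵀ)).trace ≤ Fintype.card ι := by
    have := (res_psd hR ht).trace_nonneg
    rw [P, trace_sub, trace_smul, trace_one, smul_eq_mul]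
    nlinarith
  rw [trace_sub, trace_smul, smul_eq_mul] at h1
  nlinarith [mul_le_mul_of_nonneg_left h2 ht.le]

lemma G_near {ι : Type*} [Fintype ι] [DecidableEq ι] (X : Matrix ι ι ℝ) {t : ℝ} (ht : 0 < t)
    (p q : ι) : (X p q - G t X p q) ^ 2 ≤ ((X * Xᵀ) * (X * Xᵀ)).trace / t := by
  set R := X * Xᵀ with hR
  have pR : R.PosSemidef := psd_mul_tr X
  have e : X - G t X = P t R * X := by
    rw [P, sub_mul, one_mul, smul_mul_assoc, G]
  rw [← Matrix.sub_apply, e]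
  refine (entry_sq_le _ p q).trans ?_
  have Rsym : Rᵀ = R := by rw [hR, transpose_mul, transpose_transpose]
  have e2 : ((P t R * X) * (P t R * X)ᵀ).trace = (R * (P t R * P t R)).trace := by
    rw [transpose_mul, P_symm pR ht,
      show P t R * X * (Xᵀ * P t R) = P t R * (R * P t R) by simp only [hR, mul_assoc],
      trace_mul_comm, mul_assoc]
  rw [e2]
  have a := trace_mul_nonneg pR (P_sub_sq pR ht)
  rw [mul_sub, trace_sub] at a
  have RR : (R * R).PosSemidef := by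
    have := psd_tr_mul R
    rwa [Rsym] at this
  have b := trace_mul_nonneg RR (P_psd pR ht)
  have c : (R * R).trace - (R * R * P t R).trace = t * (R * P t R).trace := by
    rw [← trace_sub, ← mul_one_sub, show (1 : Matrix ι ι ℝ) - P t R = t • Res t R by
      rw [P, sub_sub_cancel], P_eq_mul pR ht, mul_smul_comm, trace_smul, smul_eq_mul, mul_assoc]
  rw [le_div_iff₀ ht]
  nlinarith

lemma tendsto_reg {ι : Type*} [Fintype ι] [DecidableEq ι] (h X Y Z : Matrix ι ι ℝ) :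
    Tendsto (fun N : ℕ => reg (((2:ℝ) ^ N) ^ 2) h X Y Z - reg ((((2:ℝ) ^ N)⁻¹) ^ 2) h X Y Z)
      atTop (𝓝 (form h X Y Z)) := by
  have h2 : Tendsto (fun N : ℕ => ((2:ℝ) ^ N)⁻¹) atTop (𝓝 0) :=
    (tendsto_pow_atTop_atTop_of_one_lt one_lt_two).inv_tendsto_atTop
  have up : ∀ W : Matrix ι ι ℝ,
      Tendsto (fun N : ℕ => G (((2:ℝ) ^ N) ^ 2) W) atTop (𝓝 W) := by
    intro W
    refine tendsto_pi_nhds.2 fun p => tendsto_pi_nhds.2 fun q => ?_
    refine tendsto_iff_norm_sub_tendsto_zero.2 (squeeze_zero (fun _ => norm_nonneg _) (fun N => ?_)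
      (by simpa using h2.const_mul (Real.sqrt (W * Wᵀ * (W * Wᵀ)).trace)))
    have := G_near W (t := ((2:ℝ) ^ N) ^ 2) (by positivity) p q
    rw [Real.norm_eq_abs, abs_sub_comm, ← Real.sqrt_sq_eq_abs]
    refine (Real.sqrt_le_sqrt this).trans_eq ?_
    rw [Real.sqrt_div' _ (by positivity), Real.sqrt_sq (by positivity), div_eq_mul_inv]
  have dn : ∀ W : Matrix ι ι ℝ,
      Tendsto (fun N : ℕ => G ((((2:ℝ) ^ N)⁻¹) ^ 2) W) atTop (𝓝 0) := by
    intro W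
    refine tendsto_pi_nhds.2 fun p => tendsto_pi_nhds.2 fun q => ?_
    refine squeeze_zero_norm (fun N => ?_)
      (by simpa using h2.const_mul (Real.sqrt (Fintype.card ι)))
    have := G_small W (t := (((2:ℝ) ^ N)⁻¹) ^ 2) (by positivity) p q
    rw [Real.norm_eq_abs, ← Real.sqrt_sq_eq_abs]
    refine (Real.sqrt_le_sqrt this).trans_eq ?_
    rw [Real.sqrt_mul (by positivity), Real.sqrt_sq (by positivity), mul_comm]
  have hc : Continuous fun w : Matrix ι ι ℝ × Matrix ι ι ℝ × Matrix ι ι ℝ =>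
      form h w.1 w.2.1 w.2.2 := by
    unfold form; fun_prop
  have a := (hc.tendsto (X, Y, Z)).comp ((up X).prodMk_nhds ((up Y).prodMk_nhds (up Z)))
  have b := (hc.tendsto (0, 0, 0)).comp ((dn X).prodMk_nhds ((dn Y).prodMk_nhds (dn Z)))
  have := a.sub b
  simpa [form, reg, Function.comp_def] using this

/-- The finite model is bounded. -/
theorem finite_bound (M : ℕ) (e : ℕ → ℝ) (he : ∀ m, |e m| ≤ 1) :
    |∑ m ∈ range M, e m * Df f₀ f₁ f₂ m (2 ^ (M - 1 - m)) (form (hm (Ix m)))|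
      ≤ 768 * (N3 f₀ (2 ^ M) + N3 f₁ (2 ^ M) + N3 f₂ (2 ^ M)) := by
  set Φ : ℝ → ℝ := fun t =>
    ∑ m ∈ range M, e m * Df f₀ f₁ f₂ m (2 ^ (M - 1 - m)) (reg t (hm (Ix m))) with hΦ
  have step : ∀ s : ℝ, 0 < s →
      |Φ (4 * s ^ 2) - Φ (s ^ 2)| ≤ 24 * s * Ow f₀ f₁ f₂ 0 (2 ^ M) (s ^ 2) := by
    intro s hs
    set O : ℕ → ℝ := fun m => Ow f₀ f₁ f₂ m (2 ^ (M - m)) (s ^ 2) with hO
    have hstep : ∀ m ∈ range M,
        |e m * Df f₀ f₁ f₂ m (2 ^ (M - 1 - m)) (reg (4 * s ^ 2) (hm (Ix m)))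
          - e m * Df f₀ f₁ f₂ m (2 ^ (M - 1 - m)) (reg (s ^ 2) (hm (Ix m)))|
        ≤ 24 * s * O m - 24 * s * O (m + 1) := by
      intro m hm'
      have hm' := mem_range.1 hm'
      have := level_step f₀ f₁ f₂ m (2 ^ (M - 1 - m)) hs (t := s ^ 2) rfl
      rw [← mul_sub, abs_mul, ← mul_sub]
      refine ((mul_le_of_le_one_left (abs_nonneg _) (he m)).trans this).trans_eq ?_
      rw [hO]
      simp only
      rw [show M - (m + 1) = M - 1 - m by omega, ← pow_succ',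
        show M - 1 - m + 1 = M - m by omega]
    rw [hΦ]
    simp only
    rw [← sum_sub_distrib]
    refine (abs_sum_le_sum_abs _ _).trans ((sum_le_sum hstep).trans ?_)
    rw [sum_range_sub' (fun m => 24 * s * O m)]
    have : 0 ≤ O M := mul_nonneg (by positivity)
      (sum_nonneg fun a _ => sum_nonneg fun b _ => Om_nonneg _ _ _ (by positivity))
    have h0 : O 0 = Ow f₀ f₁ f₂ 0 (2 ^ M) (s ^ 2) := rfl
    nlinarith
  have bd : ∀ N : ℕ, |Φ (((2:ℝ) ^ N) ^ 2) - Φ ((((2:ℝ) ^ N)⁻¹) ^ 2)|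
      ≤ 768 * (N3 f₀ (2 ^ M) + N3 f₁ (2 ^ M) + N3 f₂ (2 ^ M)) := by
    intro N
    set g : ℕ → ℝ := fun i => Φ (((2:ℝ) ^ ((i:ℤ) - N)) ^ 2) with hg
    have e1 : g (2 * N) = Φ (((2:ℝ) ^ N) ^ 2) := by
      simp only [hg]; rw [show ((2 * N : ℕ) : ℤ) - N = (N:ℤ) by push_cast; ring, zpow_natCast]
    have e0 : g 0 = Φ ((((2:ℝ) ^ N)⁻¹) ^ 2) := by
      simp only [hg]; rw [Nat.cast_zero, zero_sub, _root_.zpow_neg, zpow_natCast]
    rw [← e1, ← e0, ← sum_range_sub g]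
    refine (abs_sum_le_sum_abs _ _).trans ?_
    refine le_trans (sum_le_sum (g := fun i : ℕ => 24 * ((2:ℝ) ^ ((i:ℤ) - N)
      * Ow f₀ f₁ f₂ 0 (2 ^ M) (((2:ℝ) ^ ((i:ℤ) - N)) ^ 2))) fun i _ => ?_) ?_
    · have := step ((2:ℝ) ^ ((i:ℤ) - N)) (zpow_pos two_pos _)
      simp only [hg]
      rw [show ((i + 1 : ℕ) : ℤ) - N = ((i:ℤ) - N) + 1 by push_cast; ring,
        zpow_add_one₀ (two_ne_zero), mul_pow, mul_comm _ ((2:ℝ) ^ 2)]
      norm_num
      linarith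
    · rw [← mul_sum]
      linarith [Ow_leaf f₀ f₁ f₂ M N]
  have lim : Tendsto (fun N : ℕ => Φ (((2:ℝ) ^ N) ^ 2) - Φ ((((2:ℝ) ^ N)⁻¹) ^ 2)) atTop
      (𝓝 (∑ m ∈ range M, e m * Df f₀ f₁ f₂ m (2 ^ (M - 1 - m)) (form (hm (Ix m))))) := by
    simp only [hΦ, ← sum_sub_distrib, ← mul_sub]
    refine tendsto_finsetSum _ fun m _ => Tendsto.const_mul _ ?_
    simp only [Df, ← mul_sub, ← sum_sub_distrib]
    exact (tendsto_finsetSum _ fun a _ => tendsto_finsetSum _ fun b _ =>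
      tendsto_reg _ _ _ _).const_mul _
  exact le_of_tendsto' lim.abs bd

end Vale.Agent.P075
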