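import Vale.Agent.P075.Step

/-! Boundedness of the dyadic triangular Hilbert form at `(3,3,3)`. -/

open MeasureTheory Finset

namespace Vale.Agent.P075

lemma cube_add_le (a b : ℝ) : |a + b| ^ 3 ≤ 4 * (|a| ^ 3 + |b| ^ 3) := by
  have h := pow_le_pow_left₀ (abs_nonneg _) (abs_add_le a b) 3
  nlinarith [mul_nonneg (add_nonneg (abs_nonneg a) (abs_nonneg b)) (sq_nonneg (|a| - |b|))]

lemma I3_triangle {F G : ℝ × ℝ → ℝ} (hF : Nice F) (hG : Nice G) :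
    I3 G ≤ 4 * (I3 F + I3 (F - G)) := by
  have hi := quad_integrable hF
  have hj := quad_integrable (hF.sub hG)
  calc I3 G ≤ ∫ x in Quad, 4 * (|F x| ^ 3 + |(F - G) x| ^ 3) := by
        refine setIntegral_mono (quad_integrable hG) ((hi.add hj).const_mul 4) fun x => ?_
        have := cube_add_le (F x) (-((F - G) x))
        rwa [abs_neg, show F x + -((F - G) x) = G x by simp] at this
    _ = _ := by rw [integral_const_mul, integral_add hi hj]; rfl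

lemma exists_smooth {F : ℝ × ℝ → ℝ} (hm : Measurable F) (hb : ∃ C, ∀ x, |F x| ≤ C)
    (hc : HasCompactSupport F) {θ : ℝ} (hθ : 0 < θ) :
    ∃ g : ℝ × ℝ → ℝ, ∃ R : ℝ, Continuous g ∧ UniformContinuous g ∧ Nice g ∧
      (∀ x, R ≤ x.1 ∨ R ≤ x.2 → g x = 0) ∧ I3 (F - g) ≤ θ := by
  obtain ⟨C, hC⟩ := hb
  have hL : MemLp F (ENNReal.ofReal 3) volume := by
    have e : F = (tsupport F).indicator F :=
      (Set.indicator_eq_self.2 subset_closure).symm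
    rw [e, memLp_indicator_iff_restrict (isClosed_tsupport F).measurableSet]
    have : IsFiniteMeasure (volume.restrict (tsupport F)) :=
      isFiniteMeasure_restrict.2 hc.isCompact.measure_lt_top.ne
    exact MemLp.of_bound hm.aestronglyMeasurable C (ae_of_all _ fun x => by simpa using hC x)
  obtain ⟨g, hg, hint, gc, gL⟩ :=
    hL.exists_hasCompactSupport_integral_rpow_sub_le (by norm_num) hθ
  obtain ⟨D, hD⟩ := hg.exists_bound_of_continuous gc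
  obtain ⟨R, hR⟩ := hg.isCompact.isBounded.exists_norm_le
  have hvan : ∀ x : ℝ × ℝ, R + 1 ≤ x.1 ∨ R + 1 ≤ x.2 → g x = 0 := by
    intro x hx
    by_contra h
    have h1 := hR x (subset_tsupport _ h)
    rw [Prod.norm_def, max_le_iff, Real.norm_eq_abs, Real.norm_eq_abs] at h1
    rcases hx with hx | hx
    · linarith [le_abs_self x.1]
    · linarith [le_abs_self x.2]
  refine ⟨g, R + 1, gc, hg.uniformContinuous_of_continuous gc,
    ⟨gc.measurable, ⟨max D 0, le_max_right _ _, fun x => le_trans (by simpa using hD x)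
      (le_max_left _ _)⟩, R + 1, hvan⟩, hvan, ?_⟩
  refine le_trans ?_ hint
  have hInt : Integrable (fun x => ‖F x - g x‖ ^ (3:ℝ)) := by
    have := (hL.sub gL).integrable_norm_rpow (by norm_num) ENNReal.ofReal_ne_top
    rw [ENNReal.toReal_ofReal (by norm_num)] at this
    exact this
  refine le_trans (le_of_eq ?_)
    (setIntegral_le_integral (s := Quad) hInt (ae_of_all _ fun x => by positivity))
  refine setIntegral_congr_fun (measurableSet_Ici.prod measurableSet_Ici) fun x _ => ?_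
  simp only [Pi.sub_apply, Real.norm_eq_abs]
  exact (Real.rpow_natCast _ 3).symm

lemma step_approx {g : ℝ × ℝ → ℝ} (hg : Nice g) {K : ℕ} {ω δ : ℝ}
    (hR : ∀ x : ℝ × ℝ, (2:ℝ) ^ K ≤ x.1 ∨ (2:ℝ) ^ K ≤ x.2 → g x = 0)
    (hu : ∀ x y : ℝ × ℝ, dist x y < δ → dist (g x) (g y) < ω)
    {k₀ : ℤ} {M : ℕ} (hk : k₀ + M = K) (hδ : (2:ℝ) ^ k₀ < δ) :
    ∃ f : ℕ → ℕ → ℝ, Supp f M ∧ I3 (g - stp k₀ f) ≤ ω ^ 3 * ((2:ℝ) ^ K) ^ 2 := by
  classical
  set d : ℝ := (2:ℝ) ^ k₀ with hd_def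
  have hd : 0 < d := zpow_pos two_pos k₀
  have hK : d * ((2 ^ M : ℕ) : ℝ) = (2:ℝ) ^ K := by
    rw [hd_def, Nat.cast_pow, Nat.cast_ofNat, ← zpow_natCast (2:ℝ) M, ← zpow_add₀ two_ne_zero, hk,
      zpow_natCast]
  refine ⟨fun p q => if p < 2 ^ M ∧ q < 2 ^ M then g (d * p, d * q) else 0, ?_, ?_⟩
  · intro p q h
    simp only; rw [if_neg]; omega
  set f : ℕ → ℕ → ℝ := fun p q => if p < 2 ^ M ∧ q < 2 ^ M then g (d * p, d * q) else 0 with hf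
  have hs : Supp f M := by intro p q h; rw [hf]; simp only; rw [if_neg]; omega
  have hω : 0 ≤ ω := dist_nonneg.trans (hu 0 0 (by rw [dist_self]; exact hd.trans hδ)).le
  set Bx : Set (ℝ × ℝ) := Set.Ico (0:ℝ) ((2:ℝ) ^ K) ×ˢ Set.Ico (0:ℝ) ((2:ℝ) ^ K) with hBx
  have hBfin : volume Bx ≠ ⊤ := by
    rw [hBx, Measure.volume_eq_prod, Measure.prod_prod]
    exact ENNReal.mul_ne_top measure_Ico_lt_top.ne measure_Ico_lt_top.ne
  have hBsub : Bx ⊆ Quad := fun x hx => ⟨hx.1.1, hx.2.1⟩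
  have pt : ∀ x ∈ Quad, |(g - stp k₀ f) x| ^ 3 ≤ Bx.indicator (fun _ => ω ^ 3) x := by
    intro x hx
    have hx1 : (0:ℝ) ≤ x.1 := hx.1
    have hx2 : (0:ℝ) ≤ x.2 := hx.2
    by_cases hb : x ∈ Bx
    · rw [Set.indicator_of_mem hb]
      refine pow_le_pow_left₀ (abs_nonneg _) ?_ 3
      have lt1 : idx k₀ x.1 < 2 ^ M := by
        rw [idx, Nat.floor_lt (div_nonneg hx1 hd.le), div_lt_iff₀' hd, hK]; exact hb.1.2
      have lt2 : idx k₀ x.2 < 2 ^ M := by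
        rw [idx, Nat.floor_lt (div_nonneg hx2 hd.le), div_lt_iff₀' hd, hK]; exact hb.2.2
      have near : ∀ y : ℝ, 0 ≤ y → dist y (d * (idx k₀ y : ℕ)) < δ := by
        intro y hy
        obtain ⟨a, b⟩ := mem_dy_iff.2 ⟨hy, (rfl : idx k₀ y = idx k₀ y)⟩
        rw [Real.dist_eq, abs_of_nonneg (by linarith)]
        linarith
      rw [Pi.sub_apply, stp, hf]
      simp only
      rw [if_pos ⟨lt1, lt2⟩, ← Real.dist_eq]
      refine (hu _ _ ?_).le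
      rw [Prod.dist_eq]
      exact max_lt (near _ hx1) (near _ hx2)
    · rw [Set.indicator_of_notMem hb]
      have h : (2:ℝ) ^ K ≤ x.1 ∨ (2:ℝ) ^ K ≤ x.2 := by
        by_contra hh
        push Not at hh
        exact hb ⟨⟨hx1, hh.1⟩, hx2, hh.2⟩
      rw [Pi.sub_apply, hR x h, stp, hs _ _ (h.imp (fun h => idx_ge (hK ▸ h))
        (fun h => idx_ge (hK ▸ h)))]
      simp
  have hI : Integrable (Bx.indicator fun _ => ω ^ 3) (volume.restrict Quad) :=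
    ((integrableOn_const hBfin).integrable_indicator
      (measurableSet_Ico.prod measurableSet_Ico)).integrableOn
  refine (setIntegral_mono_on (quad_integrable (hg.sub (nice_stp k₀ hs))) hI
    (measurableSet_Ici.prod measurableSet_Ici) pt).trans_eq ?_
  rw [setIntegral_indicator (measurableSet_Ico.prod measurableSet_Ico),
    Set.inter_eq_right.2 hBsub, setIntegral_const, smul_eq_mul, hBx, Measure.volume_eq_prod,
    measureReal_prod_prod, Real.volume_real_Ico_of_le (by positivity)]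
  ring

/-- Simultaneous approximation by step functions on a common grid. -/
lemma exists_steps {F₀ F₁ F₂ : ℝ × ℝ → ℝ}
    (m₀ : Measurable F₀) (b₀ : ∃ C, ∀ x, |F₀ x| ≤ C) (c₀ : HasCompactSupport F₀)
    (m₁ : Measurable F₁) (b₁ : ∃ C, ∀ x, |F₁ x| ≤ C) (c₁ : HasCompactSupport F₁)
    (m₂ : Measurable F₂) (b₂ : ∃ C, ∀ x, |F₂ x| ≤ C) (c₂ : HasCompactSupport F₂)
    (n₀ : Nice F₀) (n₁ : Nice F₁) (n₂ : Nice F₂)
    (S : Finset ℤ) {η : ℝ} (hη : 0 < η) :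
    ∃ (k₀ : ℤ) (M : ℕ) (f₀ f₁ f₂ : ℕ → ℕ → ℝ), (∀ k ∈ S, k₀ < k ∧ k ≤ k₀ + M) ∧
      Supp f₀ M ∧ Supp f₁ M ∧ Supp f₂ M ∧ I3 (F₀ - stp k₀ f₀) ≤ η ^ 3 ∧
      I3 (F₁ - stp k₀ f₁) ≤ η ^ 3 ∧ I3 (F₂ - stp k₀ f₂) ≤ η ^ 3 := by
  have hθ : 0 < η ^ 3 / 8 := by positivity
  obtain ⟨g₀, R₀, -, u₀, gn₀, gv₀, gi₀⟩ := exists_smooth m₀ b₀ c₀ hθ
  obtain ⟨g₁, R₁, -, u₁, gn₁, gv₁, gi₁⟩ := exists_smooth m₁ b₁ c₁ hθ
  obtain ⟨g₂, R₂, -, u₂, gn₂, gv₂, gi₂⟩ := exists_smooth m₂ b₂ c₂ hθ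
  obtain ⟨K, hK⟩ := pow_unbounded_of_one_lt (max R₀ (max R₁ R₂)) (one_lt_two (α := ℝ))
  obtain ⟨K₁, hK₁⟩ : ∃ K₁ : ℕ, ∀ k ∈ S, k ≤ (K₁ : ℤ) :=
    ⟨S.sup Int.toNat, fun k hk => by
      have := Finset.le_sup (f := Int.toNat) hk
      omega⟩
  set K' := max K K₁ with hK'
  have big : (2:ℝ) ^ K ≤ (2:ℝ) ^ K' := pow_le_pow_right₀ one_le_two (le_max_left _ _)
  have bR₀ : R₀ ≤ (2:ℝ) ^ K' := le_trans (le_trans (le_max_left _ _) hK.le) big
  have bR₁ : R₁ ≤ (2:ℝ) ^ K' := le_trans (le_trans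
    ((le_max_left R₁ R₂).trans (le_max_right _ _)) hK.le) big
  have bR₂ : R₂ ≤ (2:ℝ) ^ K' := le_trans (le_trans
    ((le_max_right R₁ R₂).trans (le_max_right _ _)) hK.le) big
  obtain ⟨ω, hω, hωb⟩ : ∃ ω : ℝ, 0 < ω ∧ ω ^ 3 * ((2:ℝ) ^ K') ^ 2 ≤ η ^ 3 / 8 := by
    refine ⟨η / (2 * (2:ℝ) ^ K'), by positivity, ?_⟩
    rw [div_pow, div_mul_eq_mul_div, div_le_iff₀ (by positivity)]
    have h1 : (1:ℝ) ≤ (2:ℝ) ^ K' := one_le_pow₀ one_le_two
    have h2 : ((2:ℝ) ^ K') ^ 2 ≤ ((2:ℝ) ^ K') ^ 3 := pow_le_pow_right₀ h1 (by norm_num)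
    nlinarith [mul_le_mul_of_nonneg_left h2 (pow_pos hη 3).le]
  obtain ⟨δ₀, p₀, h₀⟩ := Metric.uniformContinuous_iff.1 u₀ ω hω
  obtain ⟨δ₁, p₁, h₁⟩ := Metric.uniformContinuous_iff.1 u₁ ω hω
  obtain ⟨δ₂, p₂, h₂⟩ := Metric.uniformContinuous_iff.1 u₂ ω hω
  obtain ⟨N, hN⟩ := exists_pow_lt_of_lt_one (lt_min p₀ (lt_min p₁ p₂))
    (show ((1:ℝ) / 2) < 1 by norm_num)
  obtain ⟨N₁, hN₁⟩ : ∃ N₁ : ℕ, ∀ k ∈ S, -(N₁ : ℤ) < k :=
    ⟨S.sup (fun k => (-k).toNat) + 1, fun k hk => by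
      have := Finset.le_sup (f := fun k : ℤ => (-k).toNat) hk
      omega⟩
  set k₀ : ℤ := -((max N N₁ : ℕ) : ℤ) with hk₀
  set M : ℕ := K' + max N N₁ with hM
  have hkM : k₀ + M = K' := by omega
  have small : (2:ℝ) ^ k₀ < min δ₀ (min δ₁ δ₂) := by
    refine lt_of_le_of_lt ?_ hN
    rw [hk₀, _root_.zpow_neg, zpow_natCast, ← inv_pow, ← one_div]
    exact pow_le_pow_of_le_one (by norm_num) (by norm_num) (le_max_left _ _)
  obtain ⟨f₀, s₀, e₀⟩ := step_approx gn₀ (K := K')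
    (fun x hx => gv₀ x (hx.imp bR₀.trans bR₀.trans)) (fun x y h => h₀ h) hkM
    (small.trans_le (min_le_left _ _))
  obtain ⟨f₁, s₁, e₁⟩ := step_approx gn₁ (K := K')
    (fun x hx => gv₁ x (hx.imp bR₁.trans bR₁.trans)) (fun x y h => h₁ h) hkM
    (small.trans_le ((min_le_right _ _).trans (min_le_left _ _)))
  obtain ⟨f₂, s₂, e₂⟩ := step_approx gn₂ (K := K')
    (fun x hx => gv₂ x (hx.imp bR₂.trans bR₂.trans)) (fun x y h => h₂ h) hkM
    (small.trans_le ((min_le_right _ _).trans (min_le_right _ _)))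
  refine ⟨k₀, M, f₀, f₁, f₂, fun k hk => ?_, s₀, s₁, s₂, ?_, ?_, ?_⟩
  · have := hK₁ k hk; have := hN₁ k hk
    omega
  all_goals
    first
    | exact combine n₀ gn₀ (nice_stp k₀ s₀) gi₀ (e₀.trans hωb)
    | exact combine n₁ gn₁ (nice_stp k₀ s₁) gi₁ (e₁.trans hωb)
    | exact combine n₂ gn₂ (nice_stp k₀ s₂) gi₂ (e₂.trans hωb)
where
  combine {F g h : ℝ × ℝ → ℝ} {η : ℝ} (hF : Nice F) (hg : Nice g) (hh : Nice h)
      (a : I3 (F - g) ≤ η ^ 3 / 8) (b : I3 (g - h) ≤ η ^ 3 / 8) : I3 (F - h) ≤ η ^ 3 := by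
    have t := I3_triangle (F := F - g) (G := F - h) (hF.sub hg) (hF.sub hh)
    have e : I3 ((F - g) - (F - h)) = I3 (g - h) := by
      have : (F - g) - (F - h) = (-1 : ℝ) • (g - h) := by
        funext x; simp
      rw [this, I3_smul]; simp
    rw [e] at t
    linarith

lemma bound_sum {F₀ F₁ F₂ : ℝ × ℝ → ℝ}
    (m₀ : Measurable F₀) (b₀ : ∃ C, ∀ x, |F₀ x| ≤ C) (c₀ : HasCompactSupport F₀)
    (m₁ : Measurable F₁) (b₁ : ∃ C, ∀ x, |F₁ x| ≤ C) (c₁ : HasCompactSupport F₁)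
    (m₂ : Measurable F₂) (b₂ : ∃ C, ∀ x, |F₂ x| ≤ C) (c₂ : HasCompactSupport F₂)
    (n₀ : Nice F₀) (n₁ : Nice F₁) (n₂ : Nice F₂)
    (S : Finset ℤ) (ε : ℤ → ℝ) (hε : ∀ k ∈ S, |ε k| ≤ 1) :
    |dyadicForm S ε F₀ F₁ F₂| ≤ 3072 * (I3 F₀ + I3 F₁ + I3 F₂) := by
  set D : ℝ := 9216 + S.card * (15 + 8 * I3 F₀ + 5 * I3 F₁ + 2 * I3 F₂) with hD
  have := I3_nonneg F₀; have := I3_nonneg F₁; have := I3_nonneg F₂
  have hD0 : 0 < D := by positivity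
  refine le_of_forall_pos_le_add fun e he => ?_
  set η : ℝ := min 1 (e / D) with hη_def
  have hη : 0 < η := lt_min one_pos (div_pos he hD0)
  have hη1 : η ≤ 1 := min_le_left _ _
  have hηe : η * D ≤ e := (le_div_iff₀ hD0).1 (min_le_right _ _)
  have h3 : η ^ 3 ≤ η := by nlinarith [mul_nonneg hη.le hη.le, pow_le_one₀ hη.le hη1 (n := 2)]
  obtain ⟨k₀, M, f₀, f₁, f₂, hS, s₀, s₁, s₂, d₀, d₁, d₂⟩ :=
    exists_steps m₀ b₀ c₀ m₁ b₁ c₁ m₂ b₂ c₂ n₀ n₁ n₂ S hη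
  have t₀ := I3_triangle n₀ (nice_stp k₀ s₀)
  have t₁ := I3_triangle n₁ (nice_stp k₀ s₁)
  have t₂ := I3_triangle n₂ (nice_stp k₀ s₂)
  have hstep := step_bound k₀ s₀ s₁ s₂ S hS ε hε
  have hdiff : |dyadicForm S ε F₀ F₁ F₂
      - dyadicForm S ε (stp k₀ f₀) (stp k₀ f₁) (stp k₀ f₂)|
      ≤ S.card * (η * (15 + 8 * I3 F₀ + 5 * I3 F₁ + 2 * I3 F₂)) := by
    simp only [dyadicForm, ← sum_sub_distrib, ← mul_sub]
    refine (abs_sum_le_sum_abs _ _).trans ((sum_le_card_nsmul _ _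
      (η * (15 + 8 * I3 F₀ + 5 * I3 F₁ + 2 * I3 F₂)) fun k hk => ?_).trans_eq (by simp))
    rw [abs_mul]
    refine (mul_le_of_le_one_left (abs_nonneg _) (hε k hk)).trans ?_
    refine (scaleForm_cont n₀ n₁ n₂ (nice_stp k₀ s₀) (nice_stp k₀ s₁) (nice_stp k₀ s₂) k hη
      d₀ d₁ d₂).trans (mul_le_mul_of_nonneg_left ?_ hη.le)
    linarith
  have tri := abs_sub_le_iff.1 (le_refl
    |dyadicForm S ε F₀ F₁ F₂ - dyadicForm S ε (stp k₀ f₀) (stp k₀ f₁) (stp k₀ f₂)|)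
  have hle := abs_le.1 hstep
  have hd' := hdiff
  rw [hD] at hηe
  rw [abs_le]
  constructor <;> nlinarith

lemma norm3_cube (F : ℝ × ℝ → ℝ) : norm3 F ^ 3 = I3 F := by
  rw [norm3, ← Real.rpow_natCast, ← Real.rpow_mul (integral_nonneg fun _ => by positivity)]
  norm_num
  rfl

/-- The bound with explicit constant. -/
theorem dyadicForm_bound (S : Finset ℤ) (ε : ℤ → ℝ) (hε : ∀ k ∈ S, |ε k| ≤ 1)
    (F₀ F₁ F₂ : ℝ × ℝ → ℝ)
    (m₀ : Measurable F₀) (b₀ : ∃ C, ∀ x, |F₀ x| ≤ C) (c₀ : HasCompactSupport F₀)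
    (m₁ : Measurable F₁) (b₁ : ∃ C, ∀ x, |F₁ x| ≤ C) (c₁ : HasCompactSupport F₁)
    (m₂ : Measurable F₂) (b₂ : ∃ C, ∀ x, |F₂ x| ≤ C) (c₂ : HasCompactSupport F₂) :
    |dyadicForm S ε F₀ F₁ F₂| ≤ 9216 * (norm3 F₀ * norm3 F₁ * norm3 F₂) := by
  have toNice : ∀ F : ℝ × ℝ → ℝ, Measurable F → (∃ C, ∀ x, |F x| ≤ C) → HasCompactSupport F →
      Nice F := by
    intro F hm ⟨C, hC⟩ hc
    obtain ⟨R, hR⟩ := hc.isCompact.isBounded.exists_norm_le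
    refine ⟨hm, ⟨C, le_trans (abs_nonneg _) (hC 0), hC⟩, R + 1, fun x hx => ?_⟩
    by_contra h
    have h1 := hR x (subset_tsupport _ h)
    rw [Prod.norm_def, max_le_iff, Real.norm_eq_abs, Real.norm_eq_abs] at h1
    rcases hx with hx | hx
    · linarith [le_abs_self x.1]
    · linarith [le_abs_self x.2]
  have n3 : ∀ F : ℝ × ℝ → ℝ, 0 ≤ norm3 F := fun F =>
    Real.rpow_nonneg (integral_nonneg fun _ => by positivity) _
  have key : ∀ η : ℝ, 0 < η → |dyadicForm S ε F₀ F₁ F₂| ≤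
      9216 * ((norm3 F₀ + η) * (norm3 F₁ + η) * (norm3 F₂ + η)) := by
    intro η hη
    set l₀ := (norm3 F₀ + η)⁻¹ with hl₀
    set l₁ := (norm3 F₁ + η)⁻¹ with hl₁
    set l₂ := (norm3 F₂ + η)⁻¹ with hl₂
    have pos : ∀ F, 0 < (norm3 F + η)⁻¹ := fun F =>
      inv_pos.2 (add_pos_of_nonneg_of_pos (n3 F) hη)
    have one : ∀ F, I3 ((norm3 F + η)⁻¹ • F) ≤ 1 := fun F => by
      rw [I3_smul, ← norm3_cube, abs_of_pos (pos F), ← mul_pow]
      refine pow_le_one₀ (mul_nonneg (pos F).le (n3 F)) ?_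
      rw [inv_mul_le_iff₀ (add_pos_of_nonneg_of_pos (n3 F) hη)]
      linarith
    have bd : ∀ (F : ℝ × ℝ → ℝ) (l : ℝ), (∃ C, ∀ x, |F x| ≤ C) →
        ∃ C, ∀ x, |(l • F) x| ≤ C := by
      rintro F l ⟨C, hC⟩
      exact ⟨|l| * C, fun x => by
        rw [Pi.smul_apply, smul_eq_mul, abs_mul]
        exact mul_le_mul_of_nonneg_left (hC x) (abs_nonneg l)⟩
    have h := bound_sum (m₀.const_smul l₀) (bd F₀ l₀ b₀) (c₀.smul_left (f := fun _ => l₀))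
      (m₁.const_smul l₁) (bd F₁ l₁ b₁) (c₁.smul_left (f := fun _ => l₁))
      (m₂.const_smul l₂) (bd F₂ l₂ b₂) (c₂.smul_left (f := fun _ => l₂))
      ((toNice F₀ m₀ b₀ c₀).smul l₀) ((toNice F₁ m₁ b₁ c₁).smul l₁)
      ((toNice F₂ m₂ b₂ c₂).smul l₂) S ε hε
    have e : dyadicForm S ε (l₀ • F₀) (l₁ • F₁) (l₂ • F₂)
        = l₀ * l₁ * l₂ * dyadicForm S ε F₀ F₁ F₂ := by
      simp only [dyadicForm, scaleForm_smul₀, scaleForm_smul₁, scaleForm_smul₂, mul_sum]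
      exact sum_congr rfl fun k _ => by ring
    have P : 0 < l₀ * l₁ * l₂ := mul_pos (mul_pos (pos F₀) (pos F₁)) (pos F₂)
    rw [e, abs_mul, abs_of_pos P, ← le_div_iff₀' P] at h
    refine h.trans ?_
    rw [div_le_iff₀ P]
    have o₀ := one F₀; have o₁ := one F₁; have o₂ := one F₂
    have cancel : (norm3 F₀ + η) * (norm3 F₁ + η) * (norm3 F₂ + η) * (l₀ * l₁ * l₂) = 1 := by
      have := n3 F₀; have := n3 F₁; have := n3 F₂
      rw [hl₀, hl₁, hl₂]; field_simp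
    rw [mul_assoc 9216, cancel]
    linarith
  have lim : Filter.Tendsto
      (fun η : ℝ => 9216 * ((norm3 F₀ + η) * (norm3 F₁ + η) * (norm3 F₂ + η)))
      (nhdsWithin 0 (Set.Ioi 0)) (nhds (9216 * (norm3 F₀ * norm3 F₁ * norm3 F₂))) := by
    refine tendsto_nhdsWithin_of_tendsto_nhds ?_
    have : Continuous fun η : ℝ =>
        9216 * ((norm3 F₀ + η) * (norm3 F₁ + η) * (norm3 F₂ + η)) := by fun_prop
    simpa using this.tendsto 0
  exact ge_of_tendsto lim (eventually_nhdsWithin_of_forall fun η hη => key η hη)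

end Vale.Agent.P075
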