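import Mathlib

/-! Matrix inequalities for the dyadic triangular Hilbert form: resolvents, the function
`P t S = S (S + t)⁻¹`, the convex trace function `psi t S = tr S - t log det (1 + S/t)`. -/

open Matrix
open scoped MatrixOrder

namespace Vale.Agent.P075

set_option linter.unusedSectionVars false

variable {ι κ : Type*} [Fintype ι] [DecidableEq ι] [Fintype κ] [DecidableEq κ]

/-- The resolvent. -/
noncomputable def Res (t : ℝ) (S : Matrix ι ι ℝ) : Matrix ι ι ℝ := (S + t • 1)⁻¹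

/-- Regularised range projection. -/
noncomputable def P (t : ℝ) (S : Matrix ι ι ℝ) : Matrix ι ι ℝ := 1 - t • Res t S

/-- Convex trace function. -/
noncomputable def psi (t : ℝ) (S : Matrix ι ι ℝ) : ℝ :=
  S.trace - t * (Real.log (S + t • 1).det - Fintype.card ι * Real.log t)

lemma psd_tr_mul (V : Matrix κ ι ℝ) : (Vᵀ * V).PosSemidef := by
  simpa using posSemidef_conjTranspose_mul_self V

lemma psd_mul_tr (V : Matrix ι κ ℝ) : (V * Vᵀ).PosSemidef := by
  simpa using posSemidef_self_mul_conjTranspose V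

lemma psd_conj {A : Matrix ι ι ℝ} (hA : A.PosSemidef) (B : Matrix ι ι ℝ) (hB : Bᵀ = B) :
    (B * A * B).PosSemidef := by
  have := hA.mul_mul_conjTranspose_same B
  simpa [hB] using this

lemma shift_posDef {S : Matrix ι ι ℝ} (hS : S.PosSemidef) {t : ℝ} (ht : 0 < t) :
    (S + t • 1).PosDef := (PosDef.one.smul ht).posSemidef_add hS

section
variable {S : Matrix ι ι ℝ} (hS : S.PosSemidef) {t : ℝ} (ht : 0 < t)
include hS ht

lemma res_mul : Res t S * (S + t • 1) = 1 :=
  Matrix.nonsing_inv_mul _ ((Matrix.isUnit_iff_isUnit_det _).1 (shift_posDef hS ht).isUnit)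

lemma mul_res : (S + t • 1) * Res t S = 1 :=
  Matrix.mul_nonsing_inv _ ((Matrix.isUnit_iff_isUnit_det _).1 (shift_posDef hS ht).isUnit)

lemma res_psd : (Res t S).PosSemidef := (shift_posDef hS ht).inv.posSemidef

lemma res_symm : (Res t S)ᵀ = Res t S := by
  simpa [Matrix.IsHermitian] using (res_psd hS ht).1

lemma P_eq_mul : P t S = S * Res t S := by
  have h := mul_res hS ht
  rw [add_mul, smul_mul_assoc, one_mul] at h
  rw [P]; exact sub_eq_of_eq_add h.symm

lemma P_eq_mul' : P t S = Res t S * S := by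
  have h := res_mul hS ht
  rw [mul_add, mul_smul_comm, mul_one] at h
  rw [P]; exact sub_eq_of_eq_add h.symm

lemma P_symm : (P t S)ᵀ = P t S := by
  rw [P, transpose_sub, transpose_smul, res_symm hS ht, transpose_one]

lemma P_psd : (P t S).PosSemidef := by
  have h1 : P t S = Res t S * (S * S + t • S) * Res t S := by
    have : S * S + t • S = S * (S + t • 1) := by simp [mul_add]
    rw [this, ← mul_assoc, mul_assoc, mul_res hS ht, mul_one, P_eq_mul' hS ht]
  rw [h1]
  refine psd_conj (PosSemidef.add ?_ (hS.smul ht.le)) _ (res_symm hS ht)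
  have hs : Sᵀ = S := by simpa [Matrix.IsHermitian] using hS.1
  have := psd_tr_mul S
  rwa [hs] at this

lemma P_sub_sq : (P t S - P t S * P t S).PosSemidef := by
  have h1 : P t S - P t S * P t S = t • (Res t S * S * Res t S) := by
    calc P t S - P t S * P t S = (1 - P t S) * P t S := by rw [sub_mul, one_mul]
      _ = t • (Res t S * S * Res t S) := by
          rw [show (1 : Matrix ι ι ℝ) - P t S = t • Res t S by rw [P, sub_sub_cancel],
            P_eq_mul hS ht, smul_mul_assoc, mul_assoc]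
  rw [h1]
  exact (psd_conj hS _ (res_symm hS ht)).smul ht.le

lemma P_sub_P_four_eq :
    P t S - P (4 * t) S = (3 * t) • (Res (4 * t) S * (S * Res t S)) := by
  have h4 : (0:ℝ) < 4 * t := by linarith
  have e : P t S - P (4 * t) S
      = Res (4 * t) S * ((4 * t) • (S + t • 1) - t • (S + (4 * t) • 1)) * Res t S := by
    rw [mul_sub, sub_mul, mul_smul_comm, smul_mul_assoc, mul_assoc, mul_res hS ht, mul_one,
      mul_smul_comm, smul_mul_assoc, res_mul hS h4, one_mul, P, P]
    abel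
  rw [e, show (4 * t) • (S + t • (1 : Matrix ι ι ℝ)) - t • (S + (4 * t) • 1) = (3 * t) • S by module,
    mul_smul_comm, smul_mul_assoc, mul_assoc]

lemma P_four_le : (P t S - P (4 * t) S).PosSemidef := by
  have h4 : (0:ℝ) < 4 * t := by linarith
  rw [P_sub_P_four_eq hS ht]
  have e : Res (4 * t) S * (S * Res t S)
      = Res (4 * t) S * (S + (3 * t) • P t S) * Res (4 * t) S := by
    have e1 : S * Res t S * (S + (4 * t) • 1) = S + (3 * t) • P t S := by
      have h1 : S * Res t S * (S + t • 1) = S := by rw [mul_assoc, res_mul hS ht, mul_one]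
      have h2 : S + (4 * t) • (1 : Matrix ι ι ℝ) = (S + t • 1) + (3 * t) • 1 := by module
      rw [h2, mul_add, h1, mul_smul_comm, mul_one, P_eq_mul hS ht]
    rw [← e1, mul_assoc (Res (4 * t) S), mul_assoc (S * Res t S), mul_res hS h4, mul_one]
  rw [e]
  exact (psd_conj (hS.add ((P_psd hS ht).smul (by linarith))) _ (res_symm hS h4)).smul
    (by linarith)

end

lemma P_mono {S T : Matrix ι ι ℝ} (hS : S.PosSemidef) (hD : (T - S).PosSemidef) {t : ℝ}
    (ht : 0 < t) : (P t T - P t S).PosSemidef := by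
  have hT : T.PosSemidef := by simpa using hS.add hD
  have e1 : P t T - P t S = t • (Res t S - Res t T) := by rw [P, P, smul_sub]; abel
  rw [e1]
  refine PosSemidef.smul ?_ ht.le
  have e2 : Res t S - Res t T = Res t T * (T - S) * Res t S := by
    rw [show T - S = (T + t • 1) - (S + t • 1) by abel, mul_sub, sub_mul, res_mul hT ht, one_mul,
      mul_assoc, mul_res hS ht, mul_one]
  have e3 : (T - S) + (T - S) * Res t S * (T - S) = (T - S) * Res t S * (T + t • 1) := by
    have : T + t • (1 : Matrix ι ι ℝ) = (S + t • 1) + (T - S) := by abel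
    rw [this, mul_add, mul_assoc (T - S) (Res t S) (S + t • 1), res_mul hS ht, mul_one]
  have e4 : Res t S - Res t T
      = Res t T * ((T - S) + (T - S) * Res t S * (T - S)) * Res t T := by
    rw [e3, e2, mul_assoc (Res t T), mul_assoc (Res t T), mul_assoc ((T - S) * Res t S),
      mul_res hT ht, mul_one]
  rw [e4]
  have hs : (T - S)ᵀ = T - S := by simpa [Matrix.IsHermitian] using hD.1
  exact psd_conj (hD.add (psd_conj (res_psd hS ht) _ hs)) _ (res_symm hT ht)

lemma exists_sqrt {A : Matrix ι ι ℝ} (hA : A.PosSemidef) :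
    ∃ C : Matrix ι ι ℝ, Cᵀ = C ∧ C * C = A :=
  ⟨CFC.sqrt A, by simpa [Matrix.IsHermitian] using (CFC.sqrt_nonneg A).posSemidef.1,
    CFC.sqrt_mul_sqrt_self A hA.nonneg⟩

lemma trace_mul_nonneg {A B : Matrix ι ι ℝ} (hA : A.PosSemidef) (hB : B.PosSemidef) :
    0 ≤ (A * B).trace := by
  obtain ⟨C, hC, rfl⟩ := exists_sqrt hA
  rw [mul_assoc, trace_mul_comm]
  exact (psd_conj hB C hC).trace_nonneg

lemma trace_mul_mono {A A' B B' : Matrix ι ι ℝ} (hA : (A' - A).PosSemidef)
    (hA0 : A.PosSemidef) (hB : (B' - B).PosSemidef) (hB0 : B'.PosSemidef) :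
    (A * B).trace ≤ (A' * B').trace := by
  have h1 := trace_mul_nonneg hA0 hB
  have h2 := trace_mul_nonneg hA hB0
  rw [mul_sub, trace_sub] at h1
  rw [sub_mul, trace_sub] at h2
  linarith

lemma log_det_tangent {M N : Matrix ι ι ℝ} (hM : M.PosDef) (hN : N.PosDef) :
    Real.log M.det - Real.log N.det ≤ (N⁻¹ * (M - N)).trace := by
  obtain ⟨C, hC, hCC⟩ := exists_sqrt hN.posSemidef
  have hdN : C.det * C.det = N.det := by rw [← det_mul, hCC]
  have hC0 : C.det ≠ 0 := by
    intro h; rw [h, mul_zero] at hdN; exact hN.det_pos.ne hdN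
  have hu : IsUnit C.det := isUnit_iff_ne_zero.2 hC0
  have hui : Function.Injective (C⁻¹).vecMul :=
    Matrix.vecMul_injective_iff_isUnit.2 (Matrix.isUnit_nonsing_inv_iff.2
      ((Matrix.isUnit_iff_isUnit_det _).2 hu))
  have hK : (C⁻¹ * M * C⁻¹).PosDef := by
    have := hM.mul_mul_conjTranspose_same (B := C⁻¹) hui
    simpa [transpose_nonsing_inv, hC] using this
  have hNi : N⁻¹ = C⁻¹ * C⁻¹ := by rw [← hCC, Matrix.mul_inv_rev]
  have htr : (N⁻¹ * (M - N)).trace = (C⁻¹ * M * C⁻¹).trace - Fintype.card ι := by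
    rw [mul_sub, Matrix.nonsing_inv_mul _ (isUnit_iff_ne_zero.2 hN.det_pos.ne'), trace_sub,
      trace_one, hNi, mul_assoc, trace_mul_comm]
  have hdet : (C⁻¹ * M * C⁻¹).det = M.det / N.det := by
    rw [det_mul, det_mul, det_nonsing_inv, Ring.inverse_eq_inv', ← hdN]
    field_simp
  rw [← Real.log_div hM.det_pos.ne' hN.det_pos.ne', ← hdet, htr,
    hK.1.det_eq_prod_eigenvalues, hK.1.trace_eq_sum_eigenvalues]
  simp only [RCLike.ofReal_real_eq_id, id_eq]
  rw [Real.log_prod (fun i _ => (hK.eigenvalues_pos i).ne')]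
  have hs := Finset.sum_le_sum
    (fun i (_ : i ∈ Finset.univ) => Real.log_le_sub_one_of_pos (hK.eigenvalues_pos i))
  simpa using hs

lemma psi_nonneg {S : Matrix ι ι ℝ} (hS : S.PosSemidef) {t : ℝ} (ht : 0 < t) :
    0 ≤ psi t S := by
  have h := log_det_tangent (shift_posDef hS ht)
    (shift_posDef (PosSemidef.zero (n := ι) (R := ℝ)) ht)
  have hinv : (t • (1 : Matrix ι ι ℝ))⁻¹ = t⁻¹ • 1 := by
    apply Matrix.inv_eq_left_inv
    rw [smul_mul_smul_comm, inv_mul_cancel₀ ht.ne', one_mul, one_smul]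
  rw [zero_add, det_smul, det_one, mul_one, Real.log_pow, hinv, add_sub_cancel_right,
    smul_mul_assoc, one_mul, trace_smul, smul_eq_mul] at h
  have := mul_le_mul_of_nonneg_left h ht.le
  rw [mul_inv_cancel_left₀ ht.ne'] at this
  rw [psi]; linarith

lemma psi_convex {S₀ S₁ : Matrix ι ι ℝ} (h₀ : S₀.PosSemidef) (h₁ : S₁.PosSemidef) {t : ℝ}
    (ht : 0 < t) : 2 * psi t ((1 / 2 : ℝ) • (S₀ + S₁)) ≤ psi t S₀ + psi t S₁ := by
  set M := (1 / 2 : ℝ) • (S₀ + S₁) with hMdef
  have hM : M.PosSemidef := (h₀.add h₁).smul (by norm_num)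
  have a := log_det_tangent (shift_posDef h₀ ht) (shift_posDef hM ht)
  have b := log_det_tangent (shift_posDef h₁ ht) (shift_posDef hM ht)
  rw [add_sub_add_right_eq_sub] at a b
  have hz : ((M + t • 1)⁻¹ * (S₀ - M)).trace + ((M + t • 1)⁻¹ * (S₁ - M)).trace = 0 := by
    rw [← trace_add, ← mul_add, show S₀ - M + (S₁ - M) = 0 by rw [hMdef]; module, mul_zero,
      trace_zero]
  have ht2 : 2 * M.trace = S₀.trace + S₁.trace := by
    rw [hMdef, trace_smul, trace_add, smul_eq_mul]; ring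
  unfold psi
  nlinarith [mul_le_mul_of_nonneg_left (add_le_add a b) ht.le]

lemma psi_cross (V : Matrix ι κ ℝ) {B : Matrix ι ι ℝ} (hB : B.PosSemidef) {t : ℝ} (ht : 0 < t) :
    t * (P t (V * Vᵀ) * P t B).trace ≤ psi t (V * Vᵀ + B) - psi t (V * Vᵀ) - psi t B := by
  set A := V * Vᵀ with hAdef
  have hA : A.PosSemidef := psd_mul_tr V
  have hW : (Vᵀ * V).PosSemidef := psd_tr_mul V
  have hM : (1 + Vᵀ * (Res t B * V)).PosDef := by
    refine PosDef.one.add_posSemidef ?_
    have := (res_psd hB ht).conjTranspose_mul_mul_same V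
    simpa [mul_assoc, Matrix.mul_assoc] using this
  have hN : (1 + t⁻¹ • (Vᵀ * V)).PosDef :=
    PosDef.one.add_posSemidef (hW.smul (inv_nonneg.2 ht.le))
  have hscale : Vᵀ * V + t • 1 = t • (1 + t⁻¹ • (Vᵀ * V)) := by
    rw [smul_add, smul_smul, mul_inv_cancel₀ ht.ne', one_smul, add_comm]
  have hd1 : (A + B + t • 1).det = (B + t • 1).det * (1 + Vᵀ * (Res t B * V)).det := by
    rw [← det_one_add_mul_comm (Res t B * V) Vᵀ, ← det_mul]
    congr 1
    rw [mul_add, mul_one, hAdef, Matrix.mul_assoc (Res t B), ← Matrix.mul_assoc (B + t • 1),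
      mul_res hB ht, Matrix.one_mul]
    abel
  have hd2 : (A + t • 1).det = t ^ Fintype.card ι * (1 + t⁻¹ • (Vᵀ * V)).det := by
    rw [← Matrix.mul_smul, ← det_one_add_mul_comm (t⁻¹ • V) Vᵀ, ← det_smul]
    congr 1
    rw [smul_add, Matrix.smul_mul, smul_smul, mul_inv_cancel₀ ht.ne', one_smul, add_comm]
  have hninv : (1 + t⁻¹ • (Vᵀ * V))⁻¹ = t • Res t (Vᵀ * V) := by
    apply Matrix.inv_eq_left_inv
    rw [smul_mul_assoc, ← mul_smul_comm, ← hscale, res_mul hW ht]
  have hpush : V * Res t (Vᵀ * V) * Vᵀ = P t A := by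
    have h1 : V * Res t (Vᵀ * V) = Res t A * V := by
      have h2 : (A + t • 1) * V = V * (Vᵀ * V + t • 1) := by
        rw [hAdef, Matrix.add_mul, Matrix.mul_add, Matrix.smul_mul, Matrix.mul_smul,
          Matrix.one_mul, Matrix.mul_one, Matrix.mul_assoc]
      calc V * Res t (Vᵀ * V) = (Res t A * (A + t • 1)) * (V * Res t (Vᵀ * V)) := by
            rw [res_mul hA ht, Matrix.one_mul]
        _ = Res t A * ((A + t • 1) * V) * Res t (Vᵀ * V) := by simp only [Matrix.mul_assoc]
        _ = Res t A * V := by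
            rw [h2, Matrix.mul_assoc, Matrix.mul_assoc, mul_res hW ht, Matrix.mul_one]
    rw [h1, Matrix.mul_assoc, ← hAdef, P_eq_mul' hA ht]
  have htan := log_det_tangent hM hN
  have hrhs : ((1 + t⁻¹ • (Vᵀ * V))⁻¹ * (1 + Vᵀ * (Res t B * V) - (1 + t⁻¹ • (Vᵀ * V)))).trace
      = - (P t A * P t B).trace := by
    have e : 1 + Vᵀ * (Res t B * V) - (1 + t⁻¹ • (Vᵀ * V))
        = -(t⁻¹ • (Vᵀ * (P t B * V))) := by
      rw [P, Matrix.sub_mul, Matrix.one_mul, Matrix.smul_mul, Matrix.mul_sub, Matrix.mul_smul,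
        smul_sub, smul_smul, inv_mul_cancel₀ ht.ne', one_smul]
      abel
    rw [hninv, e, Matrix.mul_neg, trace_neg, Matrix.mul_smul, Matrix.smul_mul, smul_smul,
      inv_mul_cancel₀ ht.ne', one_smul, ← hpush,
      Matrix.mul_assoc V, Matrix.mul_assoc V (Res t (Vᵀ * V) * Vᵀ), trace_mul_comm V]
    simp only [Matrix.mul_assoc]
  rw [hrhs] at htan
  unfold psi
  rw [trace_add, hd1, hd2, Real.log_mul (shift_posDef hB ht).det_pos.ne' hM.det_pos.ne',
    Real.log_mul (pow_ne_zero _ ht.ne') hN.det_pos.ne', Real.log_pow]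
  nlinarith [mul_le_mul_of_nonneg_left htan ht.le]

end Vale.Agent.P075
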