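import Vale.Agent.P075.Defs

/-! Basic bounds and continuity in `L³` for one scale of the dyadic form. -/

open MeasureTheory Set Finset

set_option linter.unusedSimpArgs false

namespace Vale.Agent.P075

/-- Bounded measurable, vanishing for large coordinates. -/
def Nice (F : ℝ × ℝ → ℝ) : Prop :=
  Measurable F ∧ (∃ C, 0 ≤ C ∧ ∀ x, |F x| ≤ C) ∧ ∃ R, ∀ x, R ≤ x.1 ∨ R ≤ x.2 → F x = 0

/-- The quadrant. -/
def Quad : Set (ℝ × ℝ) := Set.Ici 0 ×ˢ Set.Ici 0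

/-- Cube of the `L³` norm on the quadrant. -/
noncomputable def I3 (F : ℝ × ℝ → ℝ) : ℝ := ∫ x in Quad, |F x| ^ 3

lemma I3_nonneg (F : ℝ × ℝ → ℝ) : 0 ≤ I3 F := integral_nonneg fun _ => by positivity

lemma dy_meas (k : ℤ) (n : ℕ) : MeasurableSet (dy k n) := measurableSet_Ico

lemma dy_nonneg {k : ℤ} {n : ℕ} {x : ℝ} (hx : x ∈ dy k n) : 0 ≤ x :=
  le_trans (by positivity) hx.1

lemma dy_vol (k : ℤ) (n : ℕ) : volume.real (dy k n) = (2 : ℝ) ^ k := by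
  rw [dy, Real.volume_real_Ico_of_le (by nlinarith [zpow_pos (two_pos (α := ℝ)) k])]
  ring

lemma haar_meas (k : ℤ) (n : ℕ) : Measurable (haar k n) :=
  (measurable_one.indicator measurableSet_Ico).sub (measurable_one.indicator measurableSet_Ico)

lemma haar_abs (k : ℤ) (n : ℕ) (x : ℝ) : |haar k n x| ≤ 1 := by
  simp only [haar, Pi.sub_apply, Set.indicator_apply, Pi.one_apply]
  split_ifs <;> norm_num

lemma finite_dy2 (k : ℤ) (a b : ℕ) : volume (dy k a ×ˢ dy k b) ≠ ⊤ := by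
  rw [Measure.volume_eq_prod, Measure.prod_prod]
  exact ENNReal.mul_ne_top measure_Ico_lt_top.ne measure_Ico_lt_top.ne

lemma finite_dy3 (k : ℤ) (a b c : ℕ) : volume (dy k a ×ˢ (dy k b ×ˢ dy k c)) ≠ ⊤ := by
  rw [Measure.volume_eq_prod, Measure.prod_prod]
  exact ENNReal.mul_ne_top measure_Ico_lt_top.ne (finite_dy2 k b c)

lemma integrable_box2 {g : ℝ × ℝ → ℝ} (hg : Measurable g) {C : ℝ} (hC : ∀ x, |g x| ≤ C)
    (k : ℤ) (a b : ℕ) : IntegrableOn g (dy k a ×ˢ dy k b) :=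
  Measure.integrableOn_of_bounded (finite_dy2 k a b) hg.aestronglyMeasurable
    (ae_of_all _ fun x => by simpa using hC x)

lemma integrable_box3 {g : ℝ × ℝ × ℝ → ℝ} (hg : Measurable g) {C : ℝ} (hC : ∀ x, |g x| ≤ C)
    (k : ℤ) (a b c : ℕ) : IntegrableOn g (dy k a ×ˢ (dy k b ×ˢ dy k c)) :=
  Measure.integrableOn_of_bounded (finite_dy3 k a b c) hg.aestronglyMeasurable
    (ae_of_all _ fun x => by simpa using hC x)

lemma proj01 {g : ℝ × ℝ → ℝ} (hg : Measurable g) {C : ℝ} (hC : ∀ x, |g x| ≤ C)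
    (k : ℤ) (a b c : ℕ) :
    ∫ x in dy k a ×ˢ (dy k b ×ˢ dy k c), g (x.1, x.2.1)
      = (2 : ℝ) ^ k * ∫ y in dy k a ×ˢ dy k b, g y := by
  have h1 := integrable_box3 (g := fun x => g (x.1, x.2.1)) (by fun_prop) (fun x => hC _) k a b c
  rw [Measure.volume_eq_prod] at h1 ⊢
  have inner : ∀ x : ℝ, ∫ y in dy k b ×ˢ dy k c, g (x, y.1)
      = (2 : ℝ) ^ k * ∫ y in dy k b, g (x, y) := by
    intro x
    have := setIntegral_prod_mul (μ := volume) (ν := volume) (fun y => g (x, y))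
      (fun _ : ℝ => (1 : ℝ)) (dy k b) (dy k c)
    simpa [Measure.volume_eq_prod, dy_vol, mul_comm] using this
  have h2 := integrable_box2 hg hC k a b
  rw [Measure.volume_eq_prod] at h2
  rw [setIntegral_prod _ h1]
  simp only [inner]
  rw [integral_const_mul, Measure.volume_eq_prod, setIntegral_prod _ h2]

lemma proj12 {g : ℝ × ℝ → ℝ} (k : ℤ) (a b c : ℕ) :
    ∫ x in dy k a ×ˢ (dy k b ×ˢ dy k c), g (x.2.1, x.2.2)
      = (2 : ℝ) ^ k * ∫ y in dy k b ×ˢ dy k c, g y := by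
  have := setIntegral_prod_mul (μ := volume) (ν := volume) (fun _ : ℝ => (1 : ℝ)) g
    (dy k a) (dy k b ×ˢ dy k c)
  simpa [Measure.volume_eq_prod, dy_vol] using this

lemma proj20 {g : ℝ × ℝ → ℝ} (hg : Measurable g) {C : ℝ} (hC : ∀ x, |g x| ≤ C)
    (k : ℤ) (a b c : ℕ) :
    ∫ x in dy k a ×ˢ (dy k b ×ˢ dy k c), g (x.2.2, x.1)
      = (2 : ℝ) ^ k * ∫ y in dy k c ×ˢ dy k a, g y := by
  have h1 := integrable_box3 (g := fun x => g (x.2.2, x.1)) (by fun_prop) (fun x => hC _) k a b c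
  rw [Measure.volume_eq_prod] at h1 ⊢
  have inner : ∀ x : ℝ, ∫ y in dy k b ×ˢ dy k c, g (y.2, x)
      = (2 : ℝ) ^ k * ∫ y in dy k c, g (y, x) := by
    intro x
    have := setIntegral_prod_mul (μ := volume) (ν := volume) (fun _ : ℝ => (1 : ℝ))
      (fun y => g (y, x)) (dy k b) (dy k c)
    simpa [Measure.volume_eq_prod, dy_vol] using this
  have h2 := integrable_box2 (g := fun y => g y.swap) (by fun_prop) (fun x => hC _) k a c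
  rw [Measure.volume_eq_prod] at h2
  rw [setIntegral_prod _ h1]
  simp only [inner]
  rw [integral_const_mul, Measure.volume_eq_prod, ← setIntegral_prod_swap (dy k c) (dy k a),
    setIntegral_prod _ h2]
  rfl

/-- The integrand of `localForm`. -/
noncomputable def kern (F₀ F₁ F₂ : ℝ × ℝ → ℝ) (k : ℤ) (n : ℕ × ℕ × ℕ) (x : ℝ × ℝ × ℝ) : ℝ :=
  F₀ (x.1, x.2.1) * F₁ (x.2.1, x.2.2) * F₂ (x.2.2, x.1)
    * (haar k n.1 x.1 * haar k n.2.1 x.2.1 * haar k n.2.2 x.2.2)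

lemma kern_meas {F₀ F₁ F₂ : ℝ × ℝ → ℝ} (h₀ : Nice F₀) (h₁ : Nice F₁) (h₂ : Nice F₂)
    (k : ℤ) (n : ℕ × ℕ × ℕ) : Measurable (kern F₀ F₁ F₂ k n) := by
  have := h₀.1; have := h₁.1; have := h₂.1
  have := haar_meas k n.1; have := haar_meas k n.2.1; have := haar_meas k n.2.2
  unfold kern; fun_prop

lemma kern_abs (F₀ F₁ F₂ : ℝ × ℝ → ℝ) (k : ℤ) (n : ℕ × ℕ × ℕ) (x : ℝ × ℝ × ℝ) :
    |kern F₀ F₁ F₂ k n x| ≤ |F₀ (x.1, x.2.1)| * |F₁ (x.2.1, x.2.2)| * |F₂ (x.2.2, x.1)| := by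
  unfold kern
  rw [abs_mul, abs_mul, abs_mul, abs_mul, abs_mul]
  refine mul_le_of_le_one_right (by positivity) ?_
  exact mul_le_one₀ (mul_le_one₀ (haar_abs _ _ _) (abs_nonneg _) (haar_abs _ _ _))
    (abs_nonneg _) (haar_abs _ _ _)

lemma kern_integrable {F₀ F₁ F₂ : ℝ × ℝ → ℝ} (h₀ : Nice F₀) (h₁ : Nice F₁) (h₂ : Nice F₂)
    (k : ℤ) (n : ℕ × ℕ × ℕ) :
    IntegrableOn (kern F₀ F₁ F₂ k n) (dy k n.1 ×ˢ (dy k n.2.1 ×ˢ dy k n.2.2)) := by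
  obtain ⟨C₀, p₀, b₀⟩ := h₀.2.1
  obtain ⟨C₁, p₁, b₁⟩ := h₁.2.1
  obtain ⟨C₂, p₂, b₂⟩ := h₂.2.1
  exact integrable_box3 (kern_meas h₀ h₁ h₂ k n) (fun x => (kern_abs F₀ F₁ F₂ k n x).trans
    (mul_le_mul (mul_le_mul (b₀ _) (b₁ _) (abs_nonneg _) p₀) (b₂ _) (abs_nonneg _)
      (mul_nonneg p₀ p₁))) k _ _ _

lemma amgm3 (a b c : ℝ) : |a| * |b| * |c| ≤ |a| ^ 3 + |b| ^ 3 + |c| ^ 3 := by
  have ha := abs_nonneg a; have hb := abs_nonneg b; have hc := abs_nonneg c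
  nlinarith [mul_nonneg (add_nonneg (add_nonneg ha hb) hc) (sq_nonneg (|a| - |b|)),
    mul_nonneg (add_nonneg (add_nonneg ha hb) hc) (sq_nonneg (|b| - |c|)),
    mul_nonneg (add_nonneg (add_nonneg ha hb) hc) (sq_nonneg (|c| - |a|)),
    mul_nonneg (mul_nonneg ha hb) hc]

lemma cube_meas {F : ℝ × ℝ → ℝ} (h : Nice F) : Measurable fun x => |F x| ^ 3 := by
  have := h.1; fun_prop

lemma cube_bdd {F : ℝ × ℝ → ℝ} (h : Nice F) : ∃ C, ∀ x, |(|F x| ^ 3)| ≤ C := by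
  obtain ⟨C, _, b⟩ := h.2.1
  exact ⟨C ^ 3, fun x => by rw [abs_of_nonneg (by positivity)]
                            exact pow_le_pow_left₀ (abs_nonneg _) (b x) 3⟩

lemma localForm_le {F₀ F₁ F₂ : ℝ × ℝ → ℝ} (h₀ : Nice F₀) (h₁ : Nice F₁) (h₂ : Nice F₂)
    (k : ℤ) (a b c : ℕ) :
    |localForm F₀ F₁ F₂ k (a, b, c)| ≤ (∫ y in dy k a ×ˢ dy k b, |F₀ y| ^ 3)
      + (∫ y in dy k b ×ˢ dy k c, |F₁ y| ^ 3) + (∫ y in dy k c ×ˢ dy k a, |F₂ y| ^ 3) := by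
  obtain ⟨C₀, b₀⟩ := cube_bdd h₀
  obtain ⟨C₁, b₁⟩ := cube_bdd h₁
  obtain ⟨C₂, b₂⟩ := cube_bdd h₂
  have m₀ := cube_meas h₀; have m₁ := cube_meas h₁; have m₂ := cube_meas h₂
  have i₀ := integrable_box3 (g := fun x => |F₀ (x.1, x.2.1)| ^ 3)
    (m₀.comp (by fun_prop)) (fun x => b₀ _) k a b c
  have i₁ := integrable_box3 (g := fun x => |F₁ (x.2.1, x.2.2)| ^ 3)
    (m₁.comp (by fun_prop)) (fun x => b₁ _) k a b c
  have i₂ := integrable_box3 (g := fun x => |F₂ (x.2.2, x.1)| ^ 3)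
    (m₂.comp (by fun_prop)) (fun x => b₂ _) k a b c
  have hp : (0:ℝ) < (2:ℝ) ^ k := zpow_pos two_pos k
  change |((2 : ℝ) ^ k)⁻¹ * ∫ x in dy k a ×ˢ (dy k b ×ˢ dy k c),
    kern F₀ F₁ F₂ k (a, b, c) x| ≤ _
  rw [abs_mul, abs_of_pos (inv_pos.2 hp)]
  calc ((2 : ℝ) ^ k)⁻¹ * |∫ x in dy k a ×ˢ (dy k b ×ˢ dy k c), kern F₀ F₁ F₂ k (a, b, c) x|
      ≤ ((2 : ℝ) ^ k)⁻¹ * ∫ x in dy k a ×ˢ (dy k b ×ˢ dy k c),
          (|F₀ (x.1, x.2.1)| ^ 3 + |F₁ (x.2.1, x.2.2)| ^ 3 + |F₂ (x.2.2, x.1)| ^ 3) := by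
        refine mul_le_mul_of_nonneg_left ?_ (inv_pos.2 hp).le
        rw [← Real.norm_eq_abs]
        exact norm_integral_le_of_norm_le ((i₀.add i₁).add i₂) (ae_of_all _ fun x =>
          (kern_abs F₀ F₁ F₂ k (a, b, c) x).trans (amgm3 _ _ _))
    _ = _ := by
        have i01 : IntegrableOn (fun x => |F₀ (x.1, x.2.1)| ^ 3 + |F₁ (x.2.1, x.2.2)| ^ 3)
            (dy k a ×ˢ (dy k b ×ˢ dy k c)) := i₀.add i₁
        rw [integral_add i01 i₂, integral_add i₀ i₁, proj01 m₀ b₀,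
          proj12 (g := fun y => |F₁ y| ^ 3), proj20 m₂ b₂]
        field_simp

lemma quad_integrable {F : ℝ × ℝ → ℝ} (h : Nice F) : IntegrableOn (fun x => |F x| ^ 3) Quad := by
  obtain ⟨R, hR⟩ := h.2.2
  obtain ⟨C, hC⟩ := cube_bdd h
  have hfin : volume (Set.Ico (0:ℝ) R ×ˢ Set.Ico (0:ℝ) R) ≠ ⊤ := by
    rw [Measure.volume_eq_prod, Measure.prod_prod]
    exact ENNReal.mul_ne_top measure_Ico_lt_top.ne measure_Ico_lt_top.ne
  have h1 : IntegrableOn (fun x => |F x| ^ 3) (Set.Ico (0:ℝ) R ×ˢ Set.Ico (0:ℝ) R) :=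
    Measure.integrableOn_of_bounded hfin (cube_meas h).aestronglyMeasurable
      (ae_of_all _ fun x => by simpa using hC x)
  refine h1.of_forall_sdiff_eq_zero (measurableSet_Ici.prod measurableSet_Ici) fun x hx => ?_
  obtain ⟨hq, hn⟩ := hx
  simp only [Quad, Set.mem_prod, Set.mem_Ici] at hq
  have : R ≤ x.1 ∨ R ≤ x.2 := by
    by_contra hh
    push Not at hh
    exact hn ⟨⟨hq.1, hh.1⟩, hq.2, hh.2⟩
  simp [hR x this]

lemma dy_disjoint (k : ℤ) {a b : ℕ} (h : a ≠ b) : Disjoint (dy k a) (dy k b) := by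
  have hp : (0:ℝ) < (2:ℝ) ^ k := zpow_pos two_pos k
  rw [Set.disjoint_left]
  intro x hx hy
  rcases lt_or_gt_of_ne h with h | h
  · have : (a:ℝ) + 1 ≤ b := by exact_mod_cast h
    nlinarith [hx.2, hy.1]
  · have : (b:ℝ) + 1 ≤ a := by exact_mod_cast h
    nlinarith [hy.2, hx.1]

/-- Finitely many dyadic squares carry at most the whole cube norm. -/
lemma sum_boxes_le {F : ℝ × ℝ → ℝ} (h : Nice F) (k : ℤ) {ι : Type*} (s : Finset ι)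
    (p : ι → ℕ × ℕ) (hp : ∀ i ∈ s, ∀ j ∈ s, p i = p j → i = j) :
    ∑ i ∈ s, ∫ y in dy k (p i).1 ×ˢ dy k (p i).2, |F y| ^ 3 ≤ I3 F := by
  have hsub : ∀ i ∈ s, dy k (p i).1 ×ˢ dy k (p i).2 ⊆ Quad := fun i _ x hx =>
    ⟨dy_nonneg hx.1, dy_nonneg hx.2⟩
  have hI := quad_integrable h
  rw [← integral_biUnion_finset s (fun i _ => (dy_meas _ _).prod (dy_meas _ _)) ?_
    (fun i hi => hI.mono_set (hsub i hi))]
  · exact setIntegral_mono_set hI (ae_of_all _ fun x => by positivity)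
      (Set.iUnion₂_subset hsub).eventuallyLE
  · intro i hi j hj hij
    have : p i ≠ p j := fun e => hij (hp i hi j hj e)
    refine Set.disjoint_prod.2 ?_
    rcases not_and_or.1 (mt Prod.ext_iff.2 this) with h | h
    · exact Or.inl (dy_disjoint k h)
    · exact Or.inr (dy_disjoint k h)

lemma xor_eq {a b c : ℕ} (h : a ^^^ b ^^^ c = 0) : c = a ^^^ b := (Nat.xor_eq_zero_iff.1 h).symm

/-- `A_k` parametrised by its first two entries. -/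
def xorEquiv : ℕ × ℕ ≃ xorZero where
  toFun p := ⟨(p.1, p.2, p.1 ^^^ p.2), by simp [xorZero]⟩
  invFun n := (n.1.1, n.1.2.1)
  left_inv p := rfl
  right_inv := by
    rintro ⟨⟨a, b, c⟩, h⟩
    exact Subtype.ext (by simp [xor_eq (show a ^^^ b ^^^ c = 0 from h)])

lemma localForm_zero {F₀ F₁ F₂ : ℝ × ℝ → ℝ} {R : ℝ}
    (hR : ∀ x, R ≤ x.1 ∨ R ≤ x.2 → F₀ x = 0) (k : ℤ) {a b c : ℕ}
    (h : R ≤ (2:ℝ) ^ k * a ∨ R ≤ (2:ℝ) ^ k * b) : localForm F₀ F₁ F₂ k (a, b, c) = 0 := by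
  rw [localForm, setIntegral_eq_zero_of_forall_eq_zero, mul_zero]
  intro x hx
  have : F₀ (x.1, x.2.1) = 0 := by
    apply hR
    rcases h with h | h
    · exact Or.inl (h.trans hx.1.1)
    · exact Or.inr (h.trans hx.2.1.1)
  simp [this]

lemma exists_cutoff {F : ℝ × ℝ → ℝ} (h : Nice F) (k : ℤ) :
    ∃ W : ℕ, ∀ G H : ℝ × ℝ → ℝ, ∀ p : ℕ × ℕ, p ∉ range W ×ˢ range W →
      localForm F G H k (p.1, p.2, p.1 ^^^ p.2) = 0 := by
  obtain ⟨R, hR⟩ := h.2.2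
  obtain ⟨W, hW⟩ := exists_nat_ge (R / (2:ℝ) ^ k)
  refine ⟨W, fun G H p hp => localForm_zero hR k ?_⟩
  simp only [Finset.mem_product, Finset.mem_range, not_and_or, not_lt] at hp
  have hk : (0:ℝ) < (2:ℝ) ^ k := zpow_pos two_pos k
  rw [div_le_iff₀' hk] at hW
  exact hp.imp (fun h => hW.trans (mul_le_mul_of_nonneg_left (by exact_mod_cast h) hk.le))
    (fun h => hW.trans (mul_le_mul_of_nonneg_left (by exact_mod_cast h) hk.le))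

lemma summable_scale {F₀ : ℝ × ℝ → ℝ} (h₀ : Nice F₀) (F₁ F₂ : ℝ × ℝ → ℝ) (k : ℤ) :
    Summable fun n : xorZero => localForm F₀ F₁ F₂ k n := by
  obtain ⟨W, hW⟩ := exists_cutoff h₀ k
  rw [← xorEquiv.summable_iff]
  exact summable_of_hasFiniteSupport ((Finset.finite_toSet (range W ×ˢ range W)).subset
    fun p hp => by by_contra hh; exact hp (hW F₁ F₂ p (by simpa using hh)))

lemma scaleForm_eq (F₀ F₁ F₂ : ℝ × ℝ → ℝ) (k : ℤ) {W : ℕ}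
    (hW : ∀ p : ℕ × ℕ, p ∉ range W ×ˢ range W →
      localForm F₀ F₁ F₂ k (p.1, p.2, p.1 ^^^ p.2) = 0) :
    scaleForm F₀ F₁ F₂ k
      = ∑ p ∈ range W ×ˢ range W, localForm F₀ F₁ F₂ k (p.1, p.2, p.1 ^^^ p.2) := by
  rw [scaleForm, ← xorEquiv.tsum_eq, tsum_eq_sum (s := range W ×ˢ range W)]
  · rfl
  · exact fun p hp => hW p hp

lemma xor_left_inj' {a b c : ℕ} (h : a ^^^ b = a ^^^ c) : b = c := by
  simpa using congrArg (fun x => a ^^^ x) h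

lemma scaleForm_le {F₀ F₁ F₂ : ℝ × ℝ → ℝ} (h₀ : Nice F₀) (h₁ : Nice F₁) (h₂ : Nice F₂)
    (k : ℤ) : |scaleForm F₀ F₁ F₂ k| ≤ I3 F₀ + I3 F₁ + I3 F₂ := by
  obtain ⟨W, hW⟩ := exists_cutoff h₀ k
  rw [scaleForm_eq _ _ _ k (hW F₁ F₂)]
  refine (abs_sum_le_sum_abs _ _).trans ((sum_le_sum fun p _ =>
    localForm_le h₀ h₁ h₂ k p.1 p.2 (p.1 ^^^ p.2)).trans ?_)
  rw [sum_add_distrib, sum_add_distrib]
  refine add_le_add (add_le_add ?_ ?_) ?_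
  · exact sum_boxes_le h₀ k (range W ×ˢ range W) (fun p => (p.1, p.2)) fun i _ j _ e => e
  · refine sum_boxes_le h₁ k (range W ×ˢ range W) (fun p => (p.2, p.1 ^^^ p.2)) fun i _ j _ e => ?_
    obtain ⟨e1, e2⟩ := Prod.ext_iff.1 e
    simp only at e1 e2
    rw [Nat.xor_comm i.1, Nat.xor_comm j.1, ← e1] at e2
    exact Prod.ext (xor_left_inj' e2) e1
  · refine sum_boxes_le h₂ k (range W ×ˢ range W) (fun p => (p.1 ^^^ p.2, p.1)) fun i _ j _ e => ?_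
    obtain ⟨e2, e1⟩ := Prod.ext_iff.1 e
    simp only at e1 e2
    rw [← e1] at e2
    exact Prod.ext e1 (xor_left_inj' e2)

lemma Nice.sub {F G : ℝ × ℝ → ℝ} (hF : Nice F) (hG : Nice G) : Nice (F - G) := by
  obtain ⟨C, hC0, hC⟩ := hF.2.1; obtain ⟨D, hD0, hD⟩ := hG.2.1
  obtain ⟨R, hR⟩ := hF.2.2; obtain ⟨R', hR'⟩ := hG.2.2
  refine ⟨hF.1.sub hG.1, ⟨C + D, by positivity, fun x => (abs_sub _ _).trans
    (add_le_add (hC x) (hD x))⟩, max R R', fun x hx => ?_⟩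
  rw [Pi.sub_apply, hR x (hx.imp (le_trans (le_max_left _ _)) (le_trans (le_max_left _ _))),
    hR' x (hx.imp (le_trans (le_max_right _ _)) (le_trans (le_max_right _ _))), sub_zero]

lemma Nice.smul {F : ℝ × ℝ → ℝ} (hF : Nice F) (c : ℝ) : Nice (c • F) := by
  obtain ⟨C, hC0, hC⟩ := hF.2.1
  obtain ⟨R, hR⟩ := hF.2.2
  refine ⟨hF.1.const_smul c, ⟨|c| * C, by positivity, fun x => ?_⟩, R, fun x hx => ?_⟩
  · rw [Pi.smul_apply, smul_eq_mul, abs_mul]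
    exact mul_le_mul_of_nonneg_left (hC x) (abs_nonneg c)
  · simp [hR x hx]

lemma scaleForm_congr {F₀ F₁ F₂ G₀ G₁ G₂ : ℝ × ℝ → ℝ} (k : ℤ) (c : ℝ)
    (h : ∀ n, localForm F₀ F₁ F₂ k n = c * localForm G₀ G₁ G₂ k n) :
    scaleForm F₀ F₁ F₂ k = c * scaleForm G₀ G₁ G₂ k := by
  rw [scaleForm, scaleForm, ← tsum_mul_left]
  exact tsum_congr fun n => h _

lemma scaleForm_smul₀ (c : ℝ) (F₀ F₁ F₂ : ℝ × ℝ → ℝ) (k : ℤ) :
    scaleForm (c • F₀) F₁ F₂ k = c * scaleForm F₀ F₁ F₂ k := by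
  refine scaleForm_congr k c fun n => ?_
  simp only [localForm, Pi.smul_apply, smul_eq_mul, mul_assoc, integral_const_mul]
  ring

lemma scaleForm_smul₁ (c : ℝ) (F₀ F₁ F₂ : ℝ × ℝ → ℝ) (k : ℤ) :
    scaleForm F₀ (c • F₁) F₂ k = c * scaleForm F₀ F₁ F₂ k := by
  refine scaleForm_congr k c fun n => ?_
  simp only [localForm, Pi.smul_apply, smul_eq_mul, mul_assoc, mul_left_comm _ c,
    integral_const_mul]

lemma scaleForm_smul₂ (c : ℝ) (F₀ F₁ F₂ : ℝ × ℝ → ℝ) (k : ℤ) :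
    scaleForm F₀ F₁ (c • F₂) k = c * scaleForm F₀ F₁ F₂ k := by
  refine scaleForm_congr k c fun n => ?_
  simp only [localForm, Pi.smul_apply, smul_eq_mul, mul_assoc, mul_left_comm _ c,
    integral_const_mul]

lemma scaleForm_sub_eq {F₀ F₁ F₂ G₀ G₁ G₂ : ℝ × ℝ → ℝ}
    (a₀ : Nice F₀) (a₁ : Nice F₁) (a₂ : Nice F₂)
    (b₀ : Nice G₀) (b₁ : Nice G₁) (b₂ : Nice G₂) (k : ℤ) :
    scaleForm F₀ F₁ F₂ k - scaleForm G₀ G₁ G₂ k = scaleForm (F₀ - G₀) F₁ F₂ k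
      + scaleForm G₀ (F₁ - G₁) F₂ k + scaleForm G₀ G₁ (F₂ - G₂) k := by
  simp only [scaleForm]
  rw [← (summable_scale a₀ F₁ F₂ k).tsum_sub (summable_scale b₀ G₁ G₂ k),
    ← (summable_scale (a₀.sub b₀) F₁ F₂ k).tsum_add (summable_scale b₀ (F₁ - G₁) F₂ k),
    ← ((summable_scale (a₀.sub b₀) F₁ F₂ k).add (summable_scale b₀ (F₁ - G₁) F₂ k)).tsum_add
      (summable_scale b₀ G₁ (F₂ - G₂) k)]
  refine tsum_congr fun n => ?_
  have i₀ := kern_integrable (a₀.sub b₀) a₁ a₂ k n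
  have i₁ := kern_integrable b₀ (a₁.sub b₁) a₂ k n
  have i₂ := kern_integrable b₀ b₁ (a₂.sub b₂) k n
  have j₀ := kern_integrable a₀ a₁ a₂ k n
  have j₁ := kern_integrable b₀ b₁ b₂ k n
  change (((2:ℝ) ^ k)⁻¹ * (∫ x in _, kern F₀ F₁ F₂ k n x))
      - (((2:ℝ) ^ k)⁻¹ * (∫ x in _, kern G₀ G₁ G₂ k n x))
    = (((2:ℝ) ^ k)⁻¹ * (∫ x in _, kern (F₀ - G₀) F₁ F₂ k n x))
      + (((2:ℝ) ^ k)⁻¹ * (∫ x in _, kern G₀ (F₁ - G₁) F₂ k n x))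
      + (((2:ℝ) ^ k)⁻¹ * (∫ x in _, kern G₀ G₁ (F₂ - G₂) k n x))
  rw [← mul_sub, ← mul_add, ← mul_add, ← integral_sub j₀ j₁, ← integral_add i₀ i₁,
    ← integral_add (by exact i₀.add i₁) i₂]
  congr 2
  funext x
  simp only [kern, Pi.sub_apply]
  ring

lemma I3_smul (c : ℝ) (F : ℝ × ℝ → ℝ) : I3 (c • F) = |c| ^ 3 * I3 F := by
  simp only [I3, Pi.smul_apply, smul_eq_mul, abs_mul, mul_pow, integral_const_mul]

/-- Continuity of one scale in `L³`. -/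
lemma scaleForm_cont {F₀ F₁ F₂ G₀ G₁ G₂ : ℝ × ℝ → ℝ}
    (a₀ : Nice F₀) (a₁ : Nice F₁) (a₂ : Nice F₂)
    (b₀ : Nice G₀) (b₁ : Nice G₁) (b₂ : Nice G₂) (k : ℤ) {η : ℝ} (hη : 0 < η)
    (d₀ : I3 (F₀ - G₀) ≤ η ^ 3) (d₁ : I3 (F₁ - G₁) ≤ η ^ 3) (d₂ : I3 (F₂ - G₂) ≤ η ^ 3) :
    |scaleForm F₀ F₁ F₂ k - scaleForm G₀ G₁ G₂ k| ≤
      η * (3 + I3 F₁ + 2 * I3 F₂ + 2 * I3 G₀ + I3 G₁) := by
  have unit : ∀ D : ℝ × ℝ → ℝ, I3 D ≤ η ^ 3 → I3 (η⁻¹ • D) ≤ 1 := by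
    intro D hD
    rw [I3_smul, abs_of_pos (inv_pos.2 hη), inv_pow, inv_mul_le_iff₀ (by positivity), mul_one]
    exact hD
  have e₀ := scaleForm_le ((a₀.sub b₀).smul η⁻¹) a₁ a₂ k
  have e₁ := scaleForm_le b₀ ((a₁.sub b₁).smul η⁻¹) a₂ k
  have e₂ := scaleForm_le b₀ b₁ ((a₂.sub b₂).smul η⁻¹) k
  rw [scaleForm_smul₀, abs_mul, abs_of_pos (inv_pos.2 hη), inv_mul_le_iff₀ hη] at e₀
  rw [scaleForm_smul₁, abs_mul, abs_of_pos (inv_pos.2 hη), inv_mul_le_iff₀ hη] at e₁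
  rw [scaleForm_smul₂, abs_mul, abs_of_pos (inv_pos.2 hη), inv_mul_le_iff₀ hη] at e₂
  rw [scaleForm_sub_eq a₀ a₁ a₂ b₀ b₁ b₂]
  refine (abs_add_three _ _ _).trans ?_
  nlinarith [unit _ d₀, unit _ d₁, unit _ d₂, mul_le_mul_of_nonneg_left (unit _ d₀) hη.le,
    mul_le_mul_of_nonneg_left (unit _ d₁) hη.le, mul_le_mul_of_nonneg_left (unit _ d₂) hη.le]

end Vale.Agent.P075
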