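import Vale.Agent.P075.Finite
import Vale.Agent.P075.Scale

/-! The dyadic form of step functions equals the finite model. -/

open MeasureTheory Finset

namespace Vale.Agent.P075

/-- Grid index at mesh `2 ^ k`. -/
noncomputable def idx (k : ℤ) (x : ℝ) : ℕ := ⌊x / (2 : ℝ) ^ k⌋₊

/-- Step function with grid values `f`. -/
noncomputable def stp (k : ℤ) (f : ℕ → ℕ → ℝ) (x : ℝ × ℝ) : ℝ := f (idx k x.1) (idx k x.2)

/-- Grid values supported in `[0, 2 ^ M)`. -/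
def Supp (f : ℕ → ℕ → ℝ) (M : ℕ) : Prop := ∀ p q, 2 ^ M ≤ p ∨ 2 ^ M ≤ q → f p q = 0

lemma idx_meas (k : ℤ) : Measurable (idx k) := by unfold idx; fun_prop

lemma mem_dy_iff {k : ℤ} {p : ℕ} {x : ℝ} : x ∈ dy k p ↔ 0 ≤ x ∧ idx k x = p := by
  have hk : (0:ℝ) < (2:ℝ) ^ k := zpow_pos two_pos k
  constructor
  · intro h
    refine ⟨dy_nonneg h, ?_⟩
    rw [idx, Nat.floor_eq_iff (div_nonneg (dy_nonneg h) hk.le), le_div_iff₀' hk, div_lt_iff₀' hk]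
    exact h
  · rintro ⟨hx, h⟩
    rw [idx, Nat.floor_eq_iff (div_nonneg hx hk.le), le_div_iff₀' hk, div_lt_iff₀' hk] at h
    exact h

lemma idx_ge {k : ℤ} {x : ℝ} {n : ℕ} (h : (2:ℝ) ^ k * n ≤ x) : n ≤ idx k x := by
  refine Nat.le_floor ?_
  rw [le_div_iff₀' (zpow_pos two_pos k)]
  exact h

lemma nice_stp (k : ℤ) {f : ℕ → ℕ → ℝ} {M : ℕ} (hf : Supp f M) : Nice (stp k f) := by
  refine ⟨(measurable_of_countable fun p : ℕ × ℕ => f p.1 p.2).comp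
    (((idx_meas k).comp measurable_fst).prodMk ((idx_meas k).comp measurable_snd)),
    ⟨∑ p ∈ range (2 ^ M) ×ˢ range (2 ^ M), |f p.1 p.2|, sum_nonneg fun _ _ => abs_nonneg _,
      fun x => ?_⟩, (2:ℝ) ^ k * (2 ^ M : ℕ), fun x hx => hf _ _ (hx.imp idx_ge idx_ge)⟩
  by_cases h : (idx k x.1, idx k x.2) ∈ range (2 ^ M) ×ˢ range (2 ^ M)
  · exact single_le_sum (f := fun p : ℕ × ℕ => |f p.1 p.2|) (fun _ _ => abs_nonneg _) h
  · simp only [Finset.mem_product, Finset.mem_range, not_and_or, not_lt] at h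
    rw [stp, hf _ _ h, abs_zero]
    exact sum_nonneg fun _ _ => abs_nonneg _

lemma dy_split (k₀ : ℤ) (L n : ℕ) :
    dy (k₀ + L) n = ⋃ p ∈ range (2 ^ L), dy k₀ (n * 2 ^ L + p) := by
  have hd : (0:ℝ) < (2:ℝ) ^ k₀ := zpow_pos two_pos k₀
  have hk : (2:ℝ) ^ (k₀ + L) = (2:ℝ) ^ k₀ * 2 ^ L := by rw [zpow_add₀ two_ne_zero, zpow_natCast]
  ext x
  simp only [Set.mem_iUnion, Finset.mem_range, mem_dy_iff (k := k₀), exists_prop]
  constructor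
  · intro h
    have hx := dy_nonneg h
    obtain ⟨h1, h2⟩ := h
    rw [hk, mul_assoc] at h1 h2
    have l : n * 2 ^ L ≤ idx k₀ x := idx_ge (by push_cast; rw [mul_comm (n:ℝ)]; exact h1)
    have u : idx k₀ x < (n + 1) * 2 ^ L := by
      rw [idx, Nat.floor_lt (div_nonneg hx hd.le), div_lt_iff₀' hd]
      push_cast; rw [mul_comm ((n:ℝ) + 1)]; exact h2
    exact ⟨idx k₀ x - n * 2 ^ L, by rw [add_mul, one_mul] at u; omega, hx, by omega⟩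
  · rintro ⟨p, hp, hx, h⟩
    have := (mem_dy_iff (k := k₀)).2 ⟨hx, h⟩
    obtain ⟨h1, h2⟩ := this
    have hp' : (p:ℝ) + 1 ≤ 2 ^ L := by exact_mod_cast hp
    push_cast at h1 h2
    constructor <;> rw [hk] <;> nlinarith [mul_le_mul_of_nonneg_left hp' hd.le,
      mul_nonneg hd.le (Nat.cast_nonneg (α := ℝ) p)]

lemma integral_dy_step (k₀ : ℤ) (L n : ℕ) (g : ℕ → ℝ) :
    ∫ x in dy (k₀ + L) n, g (idx k₀ x)
      = (2:ℝ) ^ k₀ * ∑ p ∈ range (2 ^ L), g (n * 2 ^ L + p) := by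
  have cst : ∀ q, Set.EqOn (fun x => g (idx k₀ x)) (fun _ => g q) (dy k₀ q) :=
    fun q x hx => by simp [(mem_dy_iff.1 hx).2]
  rw [dy_split, integral_biUnion_finset _ (fun p _ => dy_meas _ _) ?_ ?_, mul_sum]
  · refine sum_congr rfl fun p _ => ?_
    rw [setIntegral_congr_fun (dy_meas _ _) (cst _), setIntegral_const, dy_vol, smul_eq_mul]
  · intro i _ j _ hij
    exact dy_disjoint k₀ (by omega)
  · exact fun p _ => (integrableOn_const (measure_Ico_lt_top.ne)).congr_fun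
      (fun x hx => (cst _ hx).symm) (dy_meas _ _)

/-- Sign of the top bit, on offsets. -/
def sg (m p : ℕ) : ℝ := if p < 2 ^ m then 1 else -1

lemma haar_eq (k₀ : ℤ) (m n : ℕ) {x : ℝ} (hx : x ∈ dy (k₀ + (m + 1 : ℕ)) n) :
    haar (k₀ + (m + 1 : ℕ)) n x = sg m (idx k₀ x - n * 2 ^ (m + 1)) := by
  have hd : (0:ℝ) < (2:ℝ) ^ k₀ := zpow_pos two_pos k₀
  have hx0 := dy_nonneg hx
  have hk : (2:ℝ) ^ (k₀ + ((m + 1 : ℕ) : ℤ)) * ((n:ℝ) + 1 / 2)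
      = (2:ℝ) ^ k₀ * ((n * 2 ^ (m + 1) + 2 ^ m : ℕ) : ℝ) := by
    rw [zpow_add₀ two_ne_zero, zpow_natCast]; push_cast; ring
  have hlo : n * 2 ^ (m + 1) ≤ idx k₀ x := by
    refine idx_ge ?_
    have := hx.1
    rw [zpow_add₀ two_ne_zero, zpow_natCast] at this
    push_cast
    linarith
  simp only [haar, Pi.sub_apply, Set.indicator_apply, Pi.one_apply, Set.mem_Ico]
  by_cases h : x < (2:ℝ) ^ (k₀ + ((m + 1 : ℕ) : ℤ)) * ((n:ℝ) + 1 / 2)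
  · have hlt : idx k₀ x < n * 2 ^ (m + 1) + 2 ^ m := by
      rw [idx, Nat.floor_lt (div_nonneg hx0 hd.le), div_lt_iff₀' hd, ← hk]; exact h
    rw [if_pos ⟨hx.1, h⟩, if_neg (fun q => not_le.2 h q.1), sub_zero, sg, if_pos (by omega)]
  · have hge : n * 2 ^ (m + 1) + 2 ^ m ≤ idx k₀ x := idx_ge (hk ▸ not_lt.1 h)
    rw [if_neg (fun q => h q.2), if_pos ⟨not_lt.1 h, hx.2⟩, zero_sub, sg, if_neg (by omega)]

lemma localForm_stp (k₀ : ℤ) {f₀ f₁ f₂ : ℕ → ℕ → ℝ} {M : ℕ} (h₀ : Supp f₀ M) (h₁ : Supp f₁ M)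
    (h₂ : Supp f₂ M) (m a b c : ℕ) :
    localForm (stp k₀ f₀) (stp k₀ f₁) (stp k₀ f₂) (k₀ + (m + 1 : ℕ)) (a, b, c)
      = ((2:ℝ) ^ k₀) ^ 2 / 2 ^ (m + 1) * ∑ p ∈ range (2 ^ (m + 1)), ∑ q ∈ range (2 ^ (m + 1)),
        ∑ r ∈ range (2 ^ (m + 1)),
          f₀ (a * 2 ^ (m + 1) + p) (b * 2 ^ (m + 1) + q)
          * f₁ (b * 2 ^ (m + 1) + q) (c * 2 ^ (m + 1) + r)
          * f₂ (c * 2 ^ (m + 1) + r) (a * 2 ^ (m + 1) + p) * (sg m p * sg m q * sg m r) := by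
  set L := m + 1 with hL
  set F₀ := stp k₀ f₀ with hF₀
  set F₁ := stp k₀ f₁ with hF₁
  set F₂ := stp k₀ f₂ with hF₂
  set k := k₀ + (L : ℕ) with hk
  have n₀ := nice_stp k₀ h₀; have n₁ := nice_stp k₀ h₁; have n₂ := nice_stp k₀ h₂
  obtain ⟨C₀, p₀, b₀⟩ := n₀.2.1
  obtain ⟨C₁, p₁, b₁⟩ := n₁.2.1
  obtain ⟨C₂, p₂, b₂⟩ := n₂.2.1
  have hint := kern_integrable n₀ n₁ n₂ k (a, b, c)
  rw [Measure.volume_eq_prod] at hint
  set w : ℕ → ℕ → ℕ → ℝ := fun i j l => f₀ i j * f₁ j l * f₂ l i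
    * (sg m (i - a * 2 ^ L) * sg m (j - b * 2 ^ L) * sg m (l - c * 2 ^ L)) with hw
  have inner : ∀ x ∈ dy k a, ∫ y in dy k b ×ˢ dy k c, kern F₀ F₁ F₂ k (a, b, c) (x, y)
      = ((2:ℝ) ^ k₀) * ∑ q ∈ range (2 ^ L),
        (2:ℝ) ^ k₀ * ∑ r ∈ range (2 ^ L), w (idx k₀ x) (b * 2 ^ L + q) (c * 2 ^ L + r) := by
    intro x hx
    have i2 := integrable_box2 (g := fun y => kern F₀ F₁ F₂ k (a, b, c) (x, y))
      ((kern_meas n₀ n₁ n₂ k (a, b, c)).comp measurable_prodMk_left)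
      (fun y => (kern_abs F₀ F₁ F₂ k (a, b, c) (x, y)).trans
        (mul_le_mul (mul_le_mul (b₀ _) (b₁ _) (abs_nonneg _) p₀) (b₂ _) (abs_nonneg _)
          (mul_nonneg p₀ p₁))) k b c
    rw [Measure.volume_eq_prod] at i2 ⊢
    rw [setIntegral_prod _ i2]
    rw [setIntegral_congr_fun (dy_meas _ _) (g := fun y => (2:ℝ) ^ k₀
      * ∑ r ∈ range (2 ^ L), w (idx k₀ x) (idx k₀ y) (c * 2 ^ L + r)) fun y hy => ?_]
    · exact integral_dy_step k₀ L b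
        (fun j => (2:ℝ) ^ k₀ * ∑ r ∈ range (2 ^ L), w (idx k₀ x) j (c * 2 ^ L + r)) |>.trans rfl
    · refine Eq.trans ?_ (integral_dy_step k₀ L c (fun l => w (idx k₀ x) (idx k₀ y) l))
      refine setIntegral_congr_fun (dy_meas _ _) fun z hz => ?_
      simp only [kern, hw, hF₀, hF₁, hF₂, stp, hk, hL]
      rw [haar_eq k₀ m a hx, haar_eq k₀ m b hy, haar_eq k₀ m c hz]
  change ((2:ℝ) ^ k)⁻¹ * ∫ x in dy k a ×ˢ (dy k b ×ˢ dy k c), kern F₀ F₁ F₂ k (a, b, c) x = _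
  rw [Measure.volume_eq_prod, setIntegral_prod _ hint, setIntegral_congr_fun (dy_meas _ _) inner]
  have outer := integral_dy_step k₀ L a fun i => (2:ℝ) ^ k₀ * ∑ q ∈ range (2 ^ L),
    (2:ℝ) ^ k₀ * ∑ r ∈ range (2 ^ L), w i (b * 2 ^ L + q) (c * 2 ^ L + r)
  rw [outer, hk, zpow_add₀ two_ne_zero, zpow_natCast]
  simp only [hw, add_tsub_cancel_left, mul_sum]
  refine sum_congr rfl fun p _ => sum_congr rfl fun q _ => sum_congr rfl fun r _ => ?_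
  have := (zpow_pos (two_pos (α := ℝ)) k₀).ne'
  field_simp

lemma ixVal_lt : ∀ m (p : Ix m), ixVal m p < 2 ^ m
  | 0, _ => by simp [ixVal]
  | m + 1, (p, i) => by
    have := ixVal_lt m p
    change (i : ℕ) * 2 ^ m + ixVal m p < 2 ^ (m + 1)
    have : (i : ℕ) * 2 ^ m ≤ 1 * 2 ^ m := Nat.mul_le_mul_right _ (by omega)
    rw [pow_succ]; omega

lemma sum_ix : ∀ m (g : ℕ → ℝ), ∑ p : Ix m, g (ixVal m p) = ∑ i ∈ range (2 ^ m), g i
  | 0, g => by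
    change ∑ _p : Unit, g 0 = _
    simp
  | m + 1, g => by
    change ∑ p : Ix m × Fin 2, g ((p.2 : ℕ) * 2 ^ m + ixVal m p.1) = _
    rw [Fintype.sum_prod_type_right, Fin.sum_univ_two, sum_ix m (fun u => g ((0:Fin 2) * 2 ^ m + u)),
      sum_ix m (fun u => g ((1:Fin 2) * 2 ^ m + u)), pow_succ, mul_two, sum_range_add]
    simp

lemma form_blk (f₀ f₁ f₂ : ℕ → ℕ → ℝ) (m a b c : ℕ) :
    form (hm (Ix m)) (blk f₀ (m + 1) a b) (blk f₁ (m + 1) b c) (blk f₂ (m + 1) c a)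
      = (1 / (2 ^ (m + 1)) ^ 3 : ℝ) * ∑ p ∈ range (2 ^ (m + 1)), ∑ q ∈ range (2 ^ (m + 1)),
        ∑ r ∈ range (2 ^ (m + 1)),
          f₀ (a * 2 ^ (m + 1) + p) (b * 2 ^ (m + 1) + q)
          * f₁ (b * 2 ^ (m + 1) + q) (c * 2 ^ (m + 1) + r)
          * f₂ (c * 2 ^ (m + 1) + r) (a * 2 ^ (m + 1) + p) * (sg m p * sg m q * sg m r) := by
  have hs : ∀ p : Ix m × Fin 2,
      (if p.2 = 0 then (1:ℝ) else -1) = sg m (ixVal (m + 1) p) := by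
    rintro ⟨u, i⟩
    have := ixVal_lt m u
    change _ = sg m ((i : ℕ) * 2 ^ m + ixVal m u)
    fin_cases i <;> simp [sg, this]
  have key : ∀ X Y Z : Matrix (Ix m × Fin 2) (Ix m × Fin 2) ℝ,
      form (hm (Ix m)) X Y Z = ∑ p : Ix m × Fin 2, ∑ q : Ix m × Fin 2, ∑ r : Ix m × Fin 2,
        X p q * Y q r * Z r p * (sg m (ixVal (m + 1) p) * sg m (ixVal (m + 1) q)
          * sg m (ixVal (m + 1) r)) := by
    intro X Y Z
    have trace3 : ∀ A B C : Matrix (Ix m × Fin 2) (Ix m × Fin 2) ℝ, (A * (B * C)).trace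
        = ∑ p, ∑ q, ∑ r, A p q * (B q r * C r p) := by
      intro A B C; simp [Matrix.trace, Matrix.diag, Matrix.mul_apply, mul_sum]
    have hd : ∀ (A : Matrix (Ix m × Fin 2) (Ix m × Fin 2) ℝ) p q,
        (hm (Ix m) * A) p q = sg m (ixVal (m + 1) p) * A p q := by
      intro A p q; rw [hm, Matrix.diagonal_mul]; exact congrArg (· * A p q) (hs p)
    rw [form, show hm (Ix m) * X * hm (Ix m) * Y * hm (Ix m) * Z
      = (hm (Ix m) * X) * ((hm (Ix m) * Y) * (hm (Ix m) * Z)) by simp only [Matrix.mul_assoc],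
      trace3]
    refine sum_congr rfl fun p _ => sum_congr rfl fun q _ => sum_congr rfl fun r _ => ?_
    rw [hd, hd, hd]; ring
  refine (key _ _ _).trans ?_
  simp only [mul_sum]
  refine (sum_ix (m + 1) (fun u => ∑ q : Ix (m + 1), ∑ r : Ix (m + 1),
    ((1 / 2 ^ (m + 1) : ℝ) * f₀ (a * 2 ^ (m + 1) + u) (b * 2 ^ (m + 1) + ixVal (m + 1) q))
    * ((1 / 2 ^ (m + 1) : ℝ) * f₁ (b * 2 ^ (m + 1) + ixVal (m + 1) q)
        (c * 2 ^ (m + 1) + ixVal (m + 1) r))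
    * ((1 / 2 ^ (m + 1) : ℝ) * f₂ (c * 2 ^ (m + 1) + ixVal (m + 1) r) (a * 2 ^ (m + 1) + u))
    * (sg m u * sg m (ixVal (m + 1) q) * sg m (ixVal (m + 1) r)))).trans ?_
  refine sum_congr rfl fun p _ => ?_
  refine (sum_ix (m + 1) (fun v => ∑ r : Ix (m + 1),
    ((1 / 2 ^ (m + 1) : ℝ) * f₀ (a * 2 ^ (m + 1) + p) (b * 2 ^ (m + 1) + v))
    * ((1 / 2 ^ (m + 1) : ℝ) * f₁ (b * 2 ^ (m + 1) + v) (c * 2 ^ (m + 1) + ixVal (m + 1) r))
    * ((1 / 2 ^ (m + 1) : ℝ) * f₂ (c * 2 ^ (m + 1) + ixVal (m + 1) r) (a * 2 ^ (m + 1) + p))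
    * (sg m p * sg m v * sg m (ixVal (m + 1) r)))).trans ?_
  refine sum_congr rfl fun q _ => ?_
  refine (sum_ix (m + 1) (fun w =>
    ((1 / 2 ^ (m + 1) : ℝ) * f₀ (a * 2 ^ (m + 1) + p) (b * 2 ^ (m + 1) + q))
    * ((1 / 2 ^ (m + 1) : ℝ) * f₁ (b * 2 ^ (m + 1) + q) (c * 2 ^ (m + 1) + w))
    * ((1 / 2 ^ (m + 1) : ℝ) * f₂ (c * 2 ^ (m + 1) + w) (a * 2 ^ (m + 1) + p))
    * (sg m p * sg m q * sg m w))).trans ?_
  exact sum_congr rfl fun r _ => by ring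

lemma scaleForm_stp (k₀ : ℤ) {f₀ f₁ f₂ : ℕ → ℕ → ℝ} {M : ℕ} (h₀ : Supp f₀ M) (h₁ : Supp f₁ M)
    (h₂ : Supp f₂ M) {m : ℕ} (hm' : m < M) :
    scaleForm (stp k₀ f₀) (stp k₀ f₁) (stp k₀ f₂) (k₀ + (m + 1 : ℕ))
      = ((2:ℝ) ^ k₀) ^ 2 * Df f₀ f₁ f₂ m (2 ^ (M - 1 - m)) (form (hm (Ix m))) := by
  have hd : (0:ℝ) < (2:ℝ) ^ k₀ := zpow_pos two_pos k₀
  have hR : ∀ x : ℝ × ℝ, (2:ℝ) ^ k₀ * (2 ^ M : ℕ) ≤ x.1 ∨ (2:ℝ) ^ k₀ * (2 ^ M : ℕ) ≤ x.2 →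
      stp k₀ f₀ x = 0 := fun x hx => h₀ _ _ (hx.imp idx_ge idx_ge)
  rw [scaleForm_eq _ _ _ _ (W := 2 ^ (M - 1 - m)) fun p hp => localForm_zero hR _ ?_]
  · rw [sum_product, Df]
    simp only [mul_sum]
    refine sum_congr rfl fun a _ => sum_congr rfl fun b _ => ?_
    rw [localForm_stp k₀ h₀ h₁ h₂]
    erw [form_blk]
    rw [← mul_assoc, ← mul_assoc]
    congr 1
    rw [show ((4:ℝ)) = 2 * 2 by norm_num, mul_pow]
    field_simp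
  · simp only [Finset.mem_product, Finset.mem_range, not_and_or, not_lt] at hp
    have e : (2:ℝ) ^ k₀ * ((2 ^ M : ℕ) : ℝ)
        = (2:ℝ) ^ (k₀ + ((m + 1 : ℕ) : ℤ)) * ((2 ^ (M - 1 - m) : ℕ) : ℝ) := by
      rw [zpow_add₀ two_ne_zero, zpow_natCast]; push_cast
      rw [mul_assoc, ← pow_add, show m + 1 + (M - 1 - m) = M by omega]
    rw [e]
    exact hp.imp (fun h => mul_le_mul_of_nonneg_left (Nat.cast_le.2 h) (zpow_pos two_pos _).le)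
      (fun h => mul_le_mul_of_nonneg_left (Nat.cast_le.2 h) (zpow_pos two_pos _).le)

lemma N3_le (k₀ : ℤ) {f : ℕ → ℕ → ℝ} {M : ℕ} (hf : Supp f M) :
    ((2:ℝ) ^ k₀) ^ 2 * N3 f (2 ^ M) ≤ I3 (stp k₀ f) := by
  refine le_trans (le_of_eq ?_) (sum_boxes_le (nice_stp k₀ hf) k₀
    (range (2 ^ M) ×ˢ range (2 ^ M)) (fun p => (p.1, p.2)) fun i _ j _ e => e)
  rw [N3, ← sum_product', mul_sum]
  refine sum_congr rfl fun p _ => ?_
  rw [setIntegral_congr_fun ((dy_meas _ _).prod (dy_meas _ _))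
    (g := fun _ => |f p.1 p.2| ^ 3) fun y hy => by
      simp [stp, (mem_dy_iff.1 hy.1).2, (mem_dy_iff.1 hy.2).2]]
  rw [setIntegral_const, smul_eq_mul, Measure.volume_eq_prod, measureReal_prod_prod, dy_vol,
    dy_vol, sq]

/-- The dyadic form of step functions is bounded. -/
theorem step_bound (k₀ : ℤ) {f₀ f₁ f₂ : ℕ → ℕ → ℝ} {M : ℕ} (h₀ : Supp f₀ M) (h₁ : Supp f₁ M)
    (h₂ : Supp f₂ M) (S : Finset ℤ) (hS : ∀ k ∈ S, k₀ < k ∧ k ≤ k₀ + M) (ε : ℤ → ℝ)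
    (hε : ∀ k ∈ S, |ε k| ≤ 1) :
    |dyadicForm S ε (stp k₀ f₀) (stp k₀ f₁) (stp k₀ f₂)|
      ≤ 768 * (I3 (stp k₀ f₀) + I3 (stp k₀ f₁) + I3 (stp k₀ f₂)) := by
  set e : ℕ → ℝ := fun m => if k₀ + ((m + 1 : ℕ) : ℤ) ∈ S then ε (k₀ + ((m + 1 : ℕ) : ℤ)) else 0
    with he_def
  have he : ∀ m, |e m| ≤ 1 := fun m => by
    simp only [he_def]; split_ifs with h
    · exact hε _ h
    · simp
  have e1 : dyadicForm S ε (stp k₀ f₀) (stp k₀ f₁) (stp k₀ f₂) = ((2:ℝ) ^ k₀) ^ 2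
      * ∑ m ∈ range M, e m * Df f₀ f₁ f₂ m (2 ^ (M - 1 - m)) (form (hm (Ix m))) := by
    simp only [he_def, ite_mul, zero_mul]
    rw [← sum_filter, mul_sum, dyadicForm]
    symm
    refine sum_nbij' (fun m => k₀ + ((m + 1 : ℕ) : ℤ)) (fun k => (k - k₀ - 1).toNat)
      ?_ ?_ ?_ ?_ ?_
    · intro m hm'; exact (mem_filter.1 hm').2
    · intro k hk
      have := hS k hk
      simp only [mem_filter, Finset.mem_range]
      refine ⟨by omega, ?_⟩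
      rwa [show k₀ + (((k - k₀ - 1).toNat + 1 : ℕ) : ℤ) = k by omega]
    · intro m _; omega
    · intro k hk; have := hS k hk; omega
    · intro m hm'
      rw [scaleForm_stp k₀ h₀ h₁ h₂ (Finset.mem_range.1 (mem_filter.1 hm').1)]
      ring
  rw [e1, abs_mul, abs_of_pos (by positivity)]
  refine (mul_le_mul_of_nonneg_left (finite_bound f₀ f₁ f₂ M e he) (by positivity)).trans ?_
  have := N3_le k₀ h₀; have := N3_le k₀ h₁; have := N3_le k₀ h₂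
  linarith

end Vale.Agent.P075
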